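import Vale.Agent.P184.Finitary

/-!
From finitely supported near idempotents to idempotents in the l1 algebra, and the criteria.
-/

set_option linter.unusedSectionVars false

namespace Vale.Agent.P184

open Finset MonoidAlgebra
open scoped Classical

variable {G : Type*} [Group G] {q : ℕ}

/-- The matrix valued function attached to `e`. -/
def toMat (e : Fin q → Fin q → G → ℂ) (g : G) : Mat q := Matrix.of fun i j => e i j g

lemma summable_mnorm {e : Fin q → Fin q → G → ℂ} (he : ∀ i j, Summable fun g => ‖e i j g‖) :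
    Summable fun g => mnorm (toMat e g) :=
  summable_sum fun i _ => summable_sum fun j _ => he i j

lemma conv_defect_le {e : Fin q → Fin q → G → ℂ} (he : IsL1Idempotent e)
    (f : MonoidAlgebra (Mat q) G) (hf : ∀ g, mnorm (f.coeff g) ≤ mnorm (toMat e g)) (g : G) :
    mnorm ((f * f).coeff g - toMat e g) ≤
      ∑' h, (mnorm (f.coeff h - toMat e h) * mnorm (toMat e (h⁻¹ * g))
        + mnorm (toMat e h) * mnorm (f.coeff (h⁻¹ * g) - toMat e (h⁻¹ * g))) := by
  obtain ⟨hsum, hconv⟩ := he
  set E := fun h => mnorm (toMat e h) with hE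
  have hEs : Summable E := summable_mnorm hsum
  have hEb : ∀ h, E h ≤ ∑' x, E x := fun h => hEs.le_tsum h fun _ _ => mnorm_nonneg _
  have hDle : ∀ h, mnorm (f.coeff h - toMat e h) ≤ 2 * E h := fun h => by
    have := mnorm_add_le (f.coeff h) (-toMat e h)
    rw [← sub_eq_add_neg, mnorm_neg] at this
    have := hf h
    simp only [hE]; linarith
  -- the summands of the two convolutions
  set X := fun h => f.coeff h * f.coeff (h⁻¹ * g) with hX
  set Y := fun h => toMat e h * toMat e (h⁻¹ * g) with hY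
  set R := fun h => mnorm (f.coeff h - toMat e h) * E (h⁻¹ * g)
        + E h * mnorm (f.coeff (h⁻¹ * g) - toMat e (h⁻¹ * g)) with hR
  have hXY : ∀ h, mnorm (X h - Y h) ≤ R h := fun h => by
    have h1 : X h - Y h = (f.coeff h - toMat e h) * f.coeff (h⁻¹ * g)
        + toMat e h * (f.coeff (h⁻¹ * g) - toMat e (h⁻¹ * g)) := by
      simp only [hX, hY, sub_mul, mul_sub]; abel
    rw [h1]
    refine (mnorm_add_le _ _).trans (add_le_add ?_ (mnorm_mul_le _ _))
    exact (mnorm_mul_le _ _).trans (mul_le_mul_of_nonneg_left (hf _) (mnorm_nonneg _))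
  have hRnn : ∀ h, 0 ≤ R h := fun h =>
    add_nonneg (mul_nonneg (mnorm_nonneg _) (mnorm_nonneg _))
      (mul_nonneg (mnorm_nonneg _) (mnorm_nonneg _))
  have hRs : Summable R := by
    refine Summable.of_nonneg_of_le hRnn (fun h => ?_) (hEs.mul_left (4 * ∑' x, E x))
    have h0 : 0 ≤ E h := mnorm_nonneg _
    have a1 := mul_le_mul (hDle h) (hEb (h⁻¹ * g)) (mnorm_nonneg _) (by linarith)
    have a2 := mul_le_mul_of_nonneg_left ((hDle (h⁻¹ * g)).trans
      (mul_le_mul_of_nonneg_left (hEb (h⁻¹ * g)) zero_le_two)) h0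
    simp only [hR]; linarith
  have hYs : ∀ i j k, Summable fun h => e i j h * e j k (h⁻¹ * g) := fun i j k =>
    Summable.of_norm_bounded ((hsum i j).mul_right (∑' x, ‖e j k x‖)) fun h => by
      rw [norm_mul]
      exact mul_le_mul_of_nonneg_left
        ((hsum j k).le_tsum _ fun _ _ => norm_nonneg _) (norm_nonneg _)
  have hYs' : ∀ i k, Summable fun h => Y h i k := fun i k => by
    simpa [hY, toMat, Matrix.mul_apply] using summable_sum fun j _ => hYs i j k
  have hXs : ∀ i k, Summable fun h => X h i k := fun i k =>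
    summable_of_hasFiniteSupport (f.coeff.support.finite_toSet.subset fun h hh => by
      contrapose! hh
      simp [hX, Finsupp.notMem_support_iff.mp hh])
  have e1 : ∀ i k, ∑' h, Y h i k = e i k g := fun i k => by
    rw [← hconv i k g]
    simpa [hY, toMat, Matrix.mul_apply] using
      Summable.tsum_finsetSum (s := Finset.univ) fun j _ => hYs i j k
  have e2 : ∀ i k, ∑' h, X h i k = (f * f).coeff g i k := fun i k => by
    rw [tsum_eq_sum (s := f.coeff.support)
      fun h hh => by simp [hX, Finsupp.notMem_support_iff.mp hh]]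
    rw [coeff_mul, Finsupp.sum, Matrix.sum_apply]
    refine Finset.sum_congr rfl fun a _ => ?_
    rw [Finsupp.sum, Finset.sum_eq_single (a⁻¹ * g)]
    · rw [if_pos (mul_inv_cancel_left a g)]
    · intro b _ hb
      rw [if_neg]
      rintro rfl
      exact hb (inv_mul_cancel_left a b).symm
    · intro hb
      simp [Finsupp.notMem_support_iff.mp hb]
  have hXYs : ∀ i k, Summable fun h => ‖X h i k - Y h i k‖ := fun i k =>
    ((hXs i k).sub (hYs' i k)).norm
  calc mnorm ((f * f).coeff g - toMat e g)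
      ≤ ∑ i, ∑ k, ∑' h, ‖X h i k - Y h i k‖ := by
        simp only [mnorm, Matrix.sub_apply]
        gcongr with i _ k _
        rw [show toMat e g i k = e i k g from rfl, ← e1, ← e2,
          ← (hXs i k).tsum_sub (hYs' i k)]
        exact norm_tsum_le_tsum_norm (hXYs i k)
    _ = ∑' h, mnorm (X h - Y h) := by
        simp only [mnorm, Matrix.sub_apply]
        rw [Summable.tsum_finsetSum fun i _ => summable_sum fun k _ => hXYs i k]
        exact Finset.sum_congr rfl fun i _ => (Summable.tsum_finsetSum fun k _ => hXYs i k).symm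
    _ ≤ ∑' h, R h := by
        exact Summable.tsum_le_tsum hXY (Summable.of_nonneg_of_le (fun _ => mnorm_nonneg _) hXY hRs)
          hRs

/-- The Hattori-Stallings coefficient vanishes at a class carrying a bounded cocycle. -/
theorem Coc.hsTrace_eq_zero {g : G} (D : Coc g) (e : Fin q → Fin q → G → ℂ)
    (he : IsL1Idempotent e) : hsTrace e g = 0 := by
  set E := fun h => mnorm (toMat e h) with hE
  have hEs : Summable E := summable_mnorm he.1
  set N := ∑' x, E x with hN
  have hN0 : 0 ≤ N := tsum_nonneg fun _ => mnorm_nonneg _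
  set M := N + 1 with hM
  set K := 1 + (2 * M + 1) + 2 * (1 + M * (2 * M + 1)) with hK
  have hK0 : 0 < K := by nlinarith
  rw [← norm_eq_zero]
  refine le_antisymm (le_of_forall_pos_le_add fun η hη => ?_) (norm_nonneg _)
  rw [zero_add]
  -- choice of the precision
  set ε := min (η / (4 * (1 + 2 * M))) (min (1 / (2 * (1 + 2 * M))) (1 / (14 * K))) with hεdef
  have hε0 : 0 < ε := by
    have : 0 < 1 + 2 * M := by linarith
    positivity
  have hε1 : ε * (4 * (1 + 2 * M)) ≤ η :=
    (le_div_iff₀ (by linarith)).mp (min_le_left _ _)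
  have hε2 : ε * (2 * (1 + 2 * M)) ≤ 1 :=
    (le_div_iff₀ (by linarith)).mp ((min_le_right _ _).trans (min_le_left _ _))
  have hε3 : ε * (14 * K) ≤ 1 :=
    (le_div_iff₀ (by linarith)).mp ((min_le_right _ _).trans (min_le_right _ _))
  set δ := min (η / 2) (ε / (2 * N + 1)) with hδdef
  have hδ0 : 0 < δ := by positivity
  have hδ2 : δ * (2 * N + 1) ≤ ε := (le_div_iff₀ (by linarith)).mp (min_le_right _ _)
  -- truncation
  obtain ⟨S, hS⟩ : ∃ S : Finset G, N - δ < ∑ x ∈ S, E x :=
    (hEs.hasSum.eventually (eventually_gt_nhds (show N - δ < N by linarith))).exists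
  let f : MonoidAlgebra (Mat q) G :=
    ofCoeff (Finsupp.onFinset S (fun x => if x ∈ S then toMat e x else 0)
      fun x hx => by
        by_contra h
        simp [h] at hx)
  have hfc : ∀ x, f.coeff x = if x ∈ S then toMat e x else 0 := fun x => rfl
  have hf : ∀ x, mnorm (f.coeff x) ≤ E x := fun x => by
    rw [hfc]; split
    · exact le_rfl
    · simpa using mnorm_nonneg _
  set Dn := fun x => mnorm (f.coeff x - toMat e x) with hDn
  have hDeq : ∀ x, Dn x = if x ∈ S then 0 else E x := fun x => by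
    simp only [hDn, hfc]; split <;> simp [hE, mnorm_neg]
  have hDle : ∀ x, Dn x ≤ E x := fun x => by
    rw [hDeq]; split
    · exact mnorm_nonneg _
    · exact le_rfl
  have hDs : Summable Dn := Summable.of_nonneg_of_le (fun _ => mnorm_nonneg _) hDle hEs
  have hDsum : ∑' x, Dn x ≤ δ := by
    have h1 : ∑' x, (E x - Dn x) = ∑ x ∈ S, E x := by
      rw [tsum_eq_sum (s := S) fun x hx => by rw [hDeq, if_neg hx, sub_self]]
      exact Finset.sum_congr rfl fun x hx => by rw [hDeq, if_pos hx, sub_zero]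
    rw [hEs.tsum_sub hDs] at h1
    linarith
  have hnf : nN f ≤ N := by
    unfold nN
    rw [wN_eq_sum (fun _ => 1) f f.coeff.support (Finset.Subset.refl _)]
    refine le_trans ?_ (hEs.sum_le_tsum f.coeff.support fun _ _ => mnorm_nonneg _)
    exact Finset.sum_le_sum fun x _ => by rw [one_mul]; exact hf x
  -- the defect
  have hdef : nN (f * f - f) ≤ ε := by
    set T := (f * f - f).coeff.support with hT
    set R := fun x h => Dn h * E (h⁻¹ * x) + E h * Dn (h⁻¹ * x) with hR
    have hRs : ∀ x, Summable fun h => R x h := fun x => by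
      refine Summable.of_nonneg_of_le (fun h => add_nonneg
        (mul_nonneg (mnorm_nonneg _) (mnorm_nonneg _))
        (mul_nonneg (mnorm_nonneg _) (mnorm_nonneg _))) (fun h => ?_) (hEs.mul_left (2 * N))
      have hb := hEs.le_tsum (h⁻¹ * x) fun _ _ => mnorm_nonneg _
      have a1 := mul_le_mul (hDle h) hb (mnorm_nonneg _) (mnorm_nonneg _)
      have a2 := mul_le_mul_of_nonneg_left ((hDle (h⁻¹ * x)).trans hb)
        (mnorm_nonneg (toMat e h))
      simp only [hE] at a1 a2 ⊢; simp only [hR, hE]; linarith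
    have hinj : ∀ h : G, Set.InjOn (fun x => h⁻¹ * x) (T : Set G) := fun h x _ y _ hxy =>
      mul_left_cancel hxy
    have hper : ∀ h, ∑ x ∈ T, R x h ≤ Dn h * N + E h * δ := fun h => by
      simp only [hR, Finset.sum_add_distrib, ← Finset.mul_sum]
      refine add_le_add (mul_le_mul_of_nonneg_left ?_ (mnorm_nonneg _))
        (mul_le_mul_of_nonneg_left ?_ (mnorm_nonneg _))
      · rw [← Finset.sum_image (hinj h)]
        exact hEs.sum_le_tsum _ fun _ _ => mnorm_nonneg _
      · rw [← Finset.sum_image (hinj h)]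
        exact (hDs.sum_le_tsum _ fun _ _ => mnorm_nonneg _).trans hDsum
    calc nN (f * f - f)
        ≤ ∑ x ∈ T, ((∑' h, R x h) + Dn x) := by
          unfold nN
          rw [wN_eq_sum (fun _ => 1) _ T (Finset.Subset.refl _)]
          refine Finset.sum_le_sum fun x _ => ?_
          rw [one_mul, coeff_sub, Finsupp.sub_apply,
            show (f * f).coeff x - f.coeff x =
              ((f * f).coeff x - toMat e x) + -(f.coeff x - toMat e x) by abel]
          refine (mnorm_add_le _ _).trans (add_le_add (conv_defect_le he f hf x) ?_)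
          rw [mnorm_neg]
      _ = (∑' h, ∑ x ∈ T, R x h) + ∑ x ∈ T, Dn x := by
          rw [Finset.sum_add_distrib, Summable.tsum_finsetSum fun x _ => hRs x]
      _ ≤ (∑' h, (Dn h * N + E h * δ)) + δ := by
          refine add_le_add (Summable.tsum_le_tsum hper (summable_sum fun x _ => hRs x)
            ((hDs.mul_right N).add (hEs.mul_right δ)))
            ((hDs.sum_le_tsum _ fun _ _ => mnorm_nonneg _).trans hDsum)
      _ ≤ δ * N + N * δ + δ := by
          rw [(hDs.mul_right N).tsum_add (hEs.mul_right δ), tsum_mul_right, tsum_mul_right]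
          gcongr
      _ ≤ ε := by linarith
  have hnear := D.near hε0 f hdef (M := M) (by linarith) (by linarith)
  -- continuity of the trace
  have hclose : ‖hsTrace e g - tauF g f‖ ≤ δ := by
    let C : Set G := {x | IsConj g x}
    have hT1 : hsTrace e g = ∑' x, C.indicator (fun y => ∑ i, e i i y) x :=
      tsum_subtype C (fun y => ∑ i, e i i y)
    have hT2 : tauF g f = ∑' x, C.indicator (fun y => (f.coeff y).trace) x := by
      rw [tsum_eq_sum (s := f.coeff.support) fun x hx => by
        simp [Set.indicator_apply, Finsupp.notMem_support_iff.mp hx]]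
      exact Finset.sum_congr rfl fun x _ => by simp [C, Set.indicator_apply]
    have hb1 : ∀ x, ‖C.indicator (fun y => ∑ i, e i i y) x‖ ≤ E x := fun x =>
      (norm_indicator_le_norm_self _ _).trans (norm_trace_le (toMat e x))
    have hb2 : ∀ x, ‖C.indicator (fun y => (f.coeff y).trace) x‖ ≤ E x := fun x =>
      (norm_indicator_le_norm_self _ _).trans ((norm_trace_le _).trans (hf x))
    rw [hT1, hT2, ← (Summable.of_norm_bounded hEs hb1).tsum_sub (Summable.of_norm_bounded hEs hb2)]
    refine (tsum_of_norm_bounded hDs.hasSum fun x => ?_).trans hDsum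
    rw [Set.indicator_apply, Set.indicator_apply]
    split
    · rw [← neg_sub, norm_neg,
        show (f.coeff x).trace - ∑ i, e i i x = (f.coeff x - toMat e x).trace by
          rw [Matrix.trace_sub]; rfl]
      exact norm_trace_le _
    · simpa using mnorm_nonneg _
  have := norm_le_norm_add_norm_sub' (hsTrace e g) (tauF g f)
  have := min_le_left (η / 2) (ε / (2 * N + 1))
  linarith

/-- A function on the group with bounded right increments, on which the centraliser of `g` acts by
constant shifts, `g` by a nonzero one, gives a cocycle. -/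
theorem hsTrace_eq_zero_of_shift {g : G} (θ : G → ℝ)
    (hshift : ∀ z ∈ Subgroup.centralizer ({g} : Set G), ∀ h, θ (z * h) - θ h = θ z - θ 1)
    (hg : θ g ≠ θ 1) (hbd : ∀ a : G, ∃ b, ∀ h, |θ (h * a) - θ h| ≤ b)
    (e : Fin q → Fin q → G → ℂ) (he : IsL1Idempotent e) : hsTrace e g = 0 := by
  let k : G → G := fun x => if hx : IsConj g x then (isConj_iff.mp hx).choose else 1
  have hk : ∀ x, IsConj g x → k x * g * (k x)⁻¹ = x := fun x hx => by
    simp only [k, dif_pos hx]; exact (isConj_iff.mp hx).choose_spec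
  let u : G → G → ℝ := fun a x => θ ((k x)⁻¹) - θ ((k x)⁻¹ * a⁻¹)
  have hgmem : g ∈ Subgroup.centralizer ({g} : Set G) :=
    Subgroup.mem_centralizer_singleton_iff.mpr rfl
  -- independence of the choice of the conjugating element
  have key : ∀ (p : G) (a x : G), p * g * p⁻¹ = x → θ p⁻¹ - θ (p⁻¹ * a⁻¹) = u a x := by
    intro p a x hp
    have hx : IsConj g x := isConj_iff.mpr ⟨p, hp⟩
    have h2 := hk x hx
    set z := p⁻¹ * k x with hz
    have hzc : z ∈ Subgroup.centralizer ({g} : Set G) := by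
      rw [Subgroup.mem_centralizer_singleton_iff, hz]
      have h3 : k x * g = p * g * p⁻¹ * k x := by
        rw [hp]; exact mul_inv_eq_iff_eq_mul.mp h2
      rw [mul_assoc, h3]; group
    have h4 : p⁻¹ = z * (k x)⁻¹ := by rw [hz]; group
    have h5 : p⁻¹ * a⁻¹ = z * ((k x)⁻¹ * a⁻¹) := by rw [h4]; group
    have := hshift z hzc (k x)⁻¹
    have := hshift z hzc ((k x)⁻¹ * a⁻¹)
    simp only [u]
    rw [h5, h4]
    linarith
  let B : G → ℝ := fun a => ⨆ h : G, |θ (h * a⁻¹) - θ h|
  have hBb : ∀ a h : G, |θ (h * a⁻¹) - θ h| ≤ B a := fun a h => by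
    obtain ⟨b, hb⟩ := hbd a⁻¹
    exact le_ciSup ⟨b, by rintro _ ⟨y, rfl⟩; exact hb y⟩ h
  let D : Coc g :=
    { u := u
      c := θ g - θ 1
      B := B
      c_ne := sub_ne_zero.mpr hg
      coc := fun a b x hx => by
        have h1 := key (b * k x) a (b * x * b⁻¹) (by
          conv_rhs => rw [← hk x hx]
          group)
        rw [← h1]
        simp only [u, mul_inv_rev, mul_assoc]
        ring
      diag := fun x hx => by
        have h1 := hshift g⁻¹ (inv_mem hgmem) (k x)⁻¹
        have h2 := hshift g⁻¹ (inv_mem hgmem) g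
        rw [inv_mul_cancel] at h2
        have h3' : ∀ κ y : G, κ * g * κ⁻¹ = y → κ⁻¹ * y⁻¹ = g⁻¹ * κ⁻¹ := by
          rintro κ y rfl
          group
        have h3 := h3' _ _ (hk x hx)
        simp only [u]
        rw [h3]
        linarith
      B_nonneg := fun a => (abs_nonneg _).trans (hBb a 1)
      B_sub := fun a b => ciSup_le fun h => by
        have h1 := hBb b h
        have h2 := hBb a (h * b⁻¹)
        have := abs_sub_le (θ (h * b⁻¹ * a⁻¹)) (θ (h * b⁻¹)) (θ h)
        rw [show h * (a * b)⁻¹ = h * b⁻¹ * a⁻¹ by group]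
        linarith
      bound := fun a x _ => by
        rw [abs_sub_comm]
        exact hBb a (k x)⁻¹ }
  exact D.hsTrace_eq_zero e he

/-- The criterion in terms of a character of the centraliser dominated by a subadditive
function on the group. -/
theorem hsTrace_eq_zero_of_char {g : G} (w : G → ℝ) (hw : ∀ a b, w (a * b) ≤ w a + w b)
    (φ : Subgroup.centralizer ({g} : Set G) → ℝ) (hφ : ∀ y z, φ (y * z) = φ y + φ z)
    (hle : ∀ z, φ z ≤ w z)
    (hg : φ ⟨g, Subgroup.mem_centralizer_singleton_iff.mpr rfl⟩ ≠ 0)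
    (e : Fin q → Fin q → G → ℂ) (he : IsL1Idempotent e) : hsTrace e g = 0 := by
  have h1 : φ 1 = 0 := by simpa using hφ 1 1
  have hinv : ∀ z, φ z⁻¹ = -φ z := fun z => by
    have := hφ z⁻¹ z
    rw [inv_mul_cancel, h1] at this
    linarith
  let θ : G → ℝ := fun h => ⨅ z : Subgroup.centralizer ({g} : Set G), φ z + w ((z : G)⁻¹ * h)
  have hbdd : ∀ h : G, BddBelow (Set.range fun z : Subgroup.centralizer ({g} : Set G) =>
      φ z + w ((z : G)⁻¹ * h)) := fun h => ⟨-w h⁻¹, by
    rintro _ ⟨z, rfl⟩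
    have h2 := hw ((z : G)⁻¹ * h) h⁻¹
    rw [mul_inv_cancel_right] at h2
    have h3 := hle z⁻¹
    rw [hinv, Subgroup.coe_inv] at h3
    dsimp only
    linarith⟩
  have hshift : ∀ (z : Subgroup.centralizer ({g} : Set G)) (h : G),
      θ ((z : G) * h) = φ z + θ h := fun z h => by
    show (⨅ y : Subgroup.centralizer ({g} : Set G), φ y + w ((y : G)⁻¹ * ((z : G) * h))) = _
    rw [← (Equiv.mulLeft z).iInf_comp, add_ciInf (hbdd h)]
    refine iInf_congr fun y => ?_
    simp only [Equiv.coe_mulLeft, hφ, Subgroup.coe_mul, mul_inv_rev]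
    rw [show (y : G)⁻¹ * (z : G)⁻¹ * ((z : G) * h) = (y : G)⁻¹ * h by group]
    ring
  have hstep : ∀ h a : G, θ (h * a) ≤ θ h + w a := fun h a => by
    show _ ≤ (⨅ z : Subgroup.centralizer ({g} : Set G), φ z + w ((z : G)⁻¹ * h)) + w a
    rw [ciInf_add (hbdd h)]
    refine ciInf_mono (hbdd (h * a)) fun z => ?_
    rw [← mul_assoc]
    linarith [hw ((z : G)⁻¹ * h) a]
  refine hsTrace_eq_zero_of_shift θ (fun z hz h => ?_) ?_ (fun a => ⟨max (w a) (w a⁻¹), fun h => ?_⟩)
    e he
  · rw [hshift ⟨z, hz⟩ h]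
    have := hshift ⟨z, hz⟩ 1
    rw [mul_one] at this
    rw [this]; ring
  · intro hc
    have := hshift ⟨g, Subgroup.mem_centralizer_singleton_iff.mpr rfl⟩ 1
    rw [mul_one] at this
    exact hg (by linarith)
  · rw [abs_le]
    have h2 := hstep h a
    have h3 := hstep (h * a) a⁻¹
    rw [mul_inv_cancel_right] at h3
    constructor
    · linarith [le_max_right (w a) (w a⁻¹)]
    · linarith [le_max_left (w a) (w a⁻¹)]

/-- Positive stable length and a centraliser with an invariant mean. -/
theorem hsTrace_eq_zero_of_amenable_centralizer {g : G} (w : G → ℝ)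
    (hw : ∀ a b, w (a * b) ≤ w a + w b) {τ : ℝ} (hτ : 0 < τ)
    (hgrow : ∀ n : ℤ, |(n : ℝ)| * τ ≤ w (g ^ n))
    (m : (Subgroup.centralizer ({g} : Set G) → ℝ) → ℝ)
    (madd : ∀ a b, (∃ c, ∀ z, |a z| ≤ c) → (∃ c, ∀ z, |b z| ≤ c) → m (a + b) = m a + m b)
    (mone : ∀ c : ℝ, m (fun _ => c) = c)
    (mpos : ∀ a b, (∃ c, ∀ z, |a z| ≤ c) → (∃ c, ∀ z, |b z| ≤ c) → (∀ z, a z ≤ b z) → m a ≤ m b)
    (minv : ∀ a y, (∃ c, ∀ z, |a z| ≤ c) → m (fun z => a (z * y)) = m a)
    (e : Fin q → Fin q → G → ℂ) (he : IsL1Idempotent e) : hsTrace e g = 0 := by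
  let ψ : G → ℝ := fun h => ⨅ n : ℤ, (n : ℝ) * τ + w ((g ^ n)⁻¹ * h)
  have hbdd : ∀ h : G, BddBelow (Set.range fun n : ℤ => (n : ℝ) * τ + w ((g ^ n)⁻¹ * h)) :=
    fun h => ⟨-w h⁻¹, by
      rintro _ ⟨n, rfl⟩
      have h2 := hw ((g ^ n)⁻¹ * h) h⁻¹
      rw [mul_inv_cancel_right, ← zpow_neg] at h2
      have h3 := hgrow (-n)
      have h4 : -((n : ℝ) * τ) ≤ |(-n : ℤ)| * τ := by
        push_cast
        rw [← neg_mul]
        exact mul_le_mul_of_nonneg_right (le_abs_self _) hτ.le
      dsimp only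
      rw [← zpow_neg]
      push_cast at h3 h4
      linarith⟩
  have hψg : ∀ h, ψ (g * h) = τ + ψ h := fun h => by
    show (⨅ n : ℤ, (n : ℝ) * τ + w ((g ^ n)⁻¹ * (g * h))) = _
    rw [← (Equiv.addRight (1 : ℤ)).iInf_comp, add_ciInf (hbdd h)]
    refine iInf_congr fun n => ?_
    simp only [Equiv.coe_addRight, zpow_add, zpow_one]
    rw [show (g ^ n * g)⁻¹ * (g * h) = (g ^ n)⁻¹ * h by group]
    push_cast; ring
  have hstep : ∀ h a : G, ψ (h * a) ≤ ψ h + w a := fun h a => by
    show _ ≤ (⨅ n : ℤ, (n : ℝ) * τ + w ((g ^ n)⁻¹ * h)) + w a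
    rw [ciInf_add (hbdd h)]
    refine ciInf_mono (hbdd (h * a)) fun n => ?_
    rw [← mul_assoc]
    linarith [hw ((g ^ n)⁻¹ * h) a]
  have hbnd : ∀ y : Subgroup.centralizer ({g} : Set G),
      ∃ c, ∀ h : Subgroup.centralizer ({g} : Set G), |ψ (h * y : G) - ψ h| ≤ c := fun y =>
    ⟨max (w (y : G)) (w (y : G)⁻¹), fun h => by
      rw [abs_le]
      have h2 := hstep h y
      have h3 := hstep (h * y : G) (y : G)⁻¹
      rw [mul_inv_cancel_right] at h3
      constructor
      · linarith [le_max_right (w (y : G)) (w (y : G)⁻¹)]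
      · linarith [le_max_left (w (y : G)) (w (y : G)⁻¹)]⟩
  let φ : Subgroup.centralizer ({g} : Set G) → ℝ := fun y => m fun h => ψ (h * y : G) - ψ h
  refine hsTrace_eq_zero_of_char w hw φ (fun y z => ?_) (fun z => ?_) ?_ e he
  · simp only [φ]
    rw [← minv (fun h => ψ (h * z : G) - ψ h) y (hbnd z),
      ← madd _ _ (hbnd y) ?_]
    · congr 1
      funext h
      simp only [Pi.add_apply, Subgroup.coe_mul, mul_assoc]
      ring
    · obtain ⟨c, hc⟩ := hbnd z
      exact ⟨c, fun h => hc (h * y)⟩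
  · simp only [φ]
    refine (mpos _ (fun _ => w (z : G)) (hbnd z) ⟨|w (z : G)|, fun _ => le_rfl⟩ fun h => ?_).trans
      (mone _).le
    linarith [hstep h z]
  · have hgc : ∀ h : Subgroup.centralizer ({g} : Set G), ψ ((h : G) * g) - ψ h = τ := fun h => by
      rw [Subgroup.mem_centralizer_singleton_iff.mp h.2, hψg]
      ring
    simp only [φ, hgc, mone]
    exact hτ.ne'

end Vale.Agent.P184
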