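import Mathlib

/-!
Definitions for the problem on idempotent matrices over the l1 group algebra.
-/

namespace Vale.Agent.P184

variable {G : Type*} [Group G] {q : ℕ}

/-- `e` is an idempotent `q × q` matrix over `ℓ¹(G)`: every entry is absolutely summable and the
convolution square of `e` equals `e`. -/
def IsL1Idempotent (e : Fin q → Fin q → G → ℂ) : Prop :=
  (∀ i j, Summable fun g => ‖e i j g‖) ∧
    ∀ i k g, ∑ j, ∑' h, e i j h * e j k (h⁻¹ * g) = e i k g

/-- The Hattori-Stallings coefficient of `e` at the conjugacy class of `g`. -/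
noncomputable def hsTrace (e : Fin q → Fin q → G → ℂ) (g : G) : ℂ :=
  ∑' x : {x : G // IsConj g x}, ∑ i, e i i (x : G)

end Vale.Agent.P184
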