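import Mathlib

/-!
Countable fields admit embeddings into valued fields that detect a given element which is not a
root of unity.
-/

set_option linter.unusedSectionVars false
set_option linter.style.haveILetI false

namespace Vale.Agent.P184

open Cardinal
open scoped Polynomial IntermediateField

/-- A countable field embeds into an uncountable algebraically closed field over a common
subfield. -/
lemma exists_algHom_of_countable {E K L : Type*} [Field E] [Field K] [Field L] [Algebra E K]
    [Algebra E L] [Countable K] [IsAlgClosed L] [Uncountable L] : Nonempty (K →ₐ[E] L) := by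
  have : Countable E := (algebraMap E K).injective.countable
  obtain ⟨s, hs⟩ := exists_isTranscendenceBasis E K
  obtain ⟨t, ht⟩ := exists_isTranscendenceBasis E L
  have htinf : Infinite t := by
    by_contra hfin
    rw [not_infinite_iff_finite] at hfin
    have h := IsAlgClosed.cardinal_le_max_transcendence_basis (R := E) (K := L) _ ht
    have h1 : lift.{_} #E ≤ ℵ₀ := lift_le_aleph0.mpr mk_le_aleph0
    have h2 : lift.{_} #t ≤ ℵ₀ := lift_le_aleph0.mpr mk_le_aleph0
    exact not_countable (α := L)
      (mk_le_aleph0_iff.mp (lift_le_aleph0.mp (h.trans (max_le (max_le h1 h2) le_rfl))))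
  obtain ⟨a, ha⟩ := Countable.exists_injective_nat s
  let j : s → t := fun x => Infinite.natEmbedding t (a x)
  have hj : Function.Injective j := fun x y h => ha ((Infinite.natEmbedding t).injective h)
  have hy : AlgebraicIndependent E (fun x : s => (j x : L)) := ht.1.comp j hj
  let i : IntermediateField.adjoin E (Set.range ((↑) : s → K)) →ₐ[E] L :=
    (IsFractionRing.liftAlgHom (K := FractionRing (MvPolynomial s E))
      (algebraicIndependent_iff_injective_aeval.1 hy)).comp hs.1.reprField
  have halg := hs.isAlgebraic_field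
  letI := i.toRingHom.toAlgebra
  haveI : IsScalarTower E (IntermediateField.adjoin E (Set.range ((↑) : s → K))) L :=
    IsScalarTower.of_algebraMap_eq fun x => (i.commutes x).symm
  exact ⟨(IsAlgClosed.lift (R := IntermediateField.adjoin E (Set.range ((↑) : s → K)))
    (M := L) (S := K)).restrictScalars E⟩

/-- Existence of a homomorphism with prescribed value at a transcendental element. -/
lemma exists_ringHom_map_eq {F K L : Type*} [Field F] [Field K] [Field L] [Algebra F K]
    [Algebra F L] [Countable K] [IsAlgClosed L] [Uncountable L] {x : K} {y : L}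
    (hx : Transcendental F x) (hy : Transcendental F y) : ∃ σ : K →+* L, σ x = y := by
  have hx' : AlgebraicIndependent F ![x] := algebraicIndependent_unique_type_iff.mpr hx
  have hy' : AlgebraicIndependent F ![y] := algebraicIndependent_unique_type_iff.mpr hy
  let i : IntermediateField.adjoin F (Set.range ![x]) →ₐ[F] L :=
    (IsFractionRing.liftAlgHom (K := FractionRing (MvPolynomial (Fin 1) F))
      (algebraicIndependent_iff_injective_aeval.1 hy')).comp hx'.reprField
  letI := i.toRingHom.toAlgebra
  obtain ⟨σ⟩ := exists_algHom_of_countable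
    (E := IntermediateField.adjoin F (Set.range ![x])) (K := K) (L := L)
  refine ⟨σ.toRingHom, ?_⟩
  have hmem : x ∈ IntermediateField.adjoin F (Set.range ![x]) :=
    IntermediateField.subset_adjoin _ _ ⟨0, rfl⟩
  refine (σ.commutes ⟨x, hmem⟩).trans ?_
  show i ⟨x, hmem⟩ = y
  have h1 : (⟨x, hmem⟩ : IntermediateField.adjoin F (Set.range ![x])) =
      hx'.aevalEquivField (algebraMap (MvPolynomial (Fin 1) F)
        (FractionRing (MvPolynomial (Fin 1) F)) (MvPolynomial.X 0)) := by
    apply Subtype.ext
    rw [hx'.aevalEquivField_algebraMap_apply_coe]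
    simp only [MvPolynomial.aeval_X, Matrix.cons_val_zero]
  rw [h1]
  simp [i, AlgebraicIndependent.reprField]

/-- An element of a number field whose images in all p-adic algebraic closures have norm at most
one is integral. -/
lemma isIntegral_of_padic_norm_le_one {E : Type*} [Field E] [Algebra ℚ E] [FiniteDimensional ℚ E]
    {x : E} (h : ∀ (p : ℕ) [Fact p.Prime] (φ : E →+* PadicAlgCl p), ‖φ x‖ ≤ 1) :
    IsIntegral ℤ x := by
  have hxQ : IsIntegral ℚ x := IsIntegral.of_finite ℚ x
  set P := minpoly ℚ x with hP
  have key : ∀ (p : ℕ) [Fact p.Prime] (m : ℕ),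
      ‖algebraMap ℚ (PadicAlgCl p) (P.coeff m)‖ ≤ 1 := by
    intro p _ m
    let O : Subring (PadicAlgCl p) :=
      (NormedField.valuation (K := PadicAlgCl p)).integer
    have hO : ∀ z : PadicAlgCl p, z ∈ O ↔ ‖z‖ ≤ 1 := fun z => by
      rw [Valuation.mem_integer_iff]
      exact NNReal.coe_le_coe.symm
    set Q := P.map (algebraMap ℚ (PadicAlgCl p)) with hQ
    have hsplit : Q.Splits := IsAlgClosed.splits Q
    have hQm : Q.Monic := (minpoly.monic hxQ).map _
    have hlift : Q ∈ Polynomial.lifts O.subtype := by
      rw [hsplit.eq_prod_roots_of_monic hQm]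
      refine Subsemiring.multiset_prod_mem _ _ fun f hf => ?_
      obtain ⟨r, hr, rfl⟩ := Multiset.mem_map.mp hf
      have hr' : ‖r‖ ≤ 1 := by
        have h0 : Polynomial.eval₂ (algebraMap ℚ (PadicAlgCl p)) r P = 0 := by
          rw [← Polynomial.eval_map]
          exact (Polynomial.mem_roots hQm.ne_zero).mp hr
        obtain ⟨φ, hφ⟩ : ∃ φ : E →ₐ[ℚ] PadicAlgCl p, φ x = r :=
          IntermediateField.exists_algHom_of_splits_of_aeval
            (fun s => ⟨IsIntegral.of_finite ℚ s, IsAlgClosed.splits _⟩)
            (by simpa [Polynomial.aeval_def, hP] using h0)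
        rw [← hφ]
        exact h p φ.toRingHom
      exact ⟨(Polynomial.X - Polynomial.C (⟨r, (hO r).mpr hr'⟩ : O) : Polynomial O), by simp⟩
    obtain ⟨c, hc⟩ := (Polynomial.lifts_iff_coeff_lifts Q).mp hlift m
    rw [← Polynomial.coeff_map, ← hQ, ← hc]
    exact (hO _).mp c.2
  have hden : ∀ m, (P.coeff m).den = 1 := by
    intro m
    by_contra hd
    obtain ⟨p, hp, hpd⟩ := Nat.exists_prime_and_dvd hd
    haveI := Fact.mk hp
    have h1 := key p m
    rw [IsScalarTower.algebraMap_apply ℚ ℚ_[p] (PadicAlgCl p),
      PadicAlgCl.norm_extends p, eq_ratCast, Padic.eq_padicNorm] at h1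
    have hq : P.coeff m ≠ 0 := by intro h0; simp [h0] at hd
    have h2 : padicNorm p (P.coeff m) ≤ 1 := by exact_mod_cast h1
    rw [padicNorm.eq_zpow_of_nonzero hq] at h2
    have h3 : -padicValRat p (P.coeff m) ≤ 0 :=
      (zpow_le_one_iff_right₀ (by exact_mod_cast hp.one_lt)).mp h2
    have h4 : ¬ (p : ℤ) ∣ (P.coeff m).num := by
      intro hn
      have := (Rat.reduced (P.coeff m))
      exact Nat.not_coprime_of_dvd_of_dvd hp.one_lt (Int.natCast_dvd.mp hn) hpd this
    have h5 : 1 ≤ padicValNat p (P.coeff m).den :=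
      one_le_padicValNat_of_dvd (P.coeff m).den_ne_zero hpd
    rw [padicValRat_def, padicValInt.eq_zero_of_not_dvd h4] at h3
    omega
  have hlift : P ∈ Polynomial.lifts (Int.castRingHom ℚ) := by
    rw [Polynomial.lifts_iff_coeff_lifts]
    exact fun m => ⟨(P.coeff m).num, Rat.den_eq_one_iff _ |>.mp (hden m)⟩
  obtain ⟨P', hP', -, hmon⟩ :=
    Polynomial.lifts_and_degree_eq_and_monic hlift (minpoly.monic hxQ)
  refine ⟨P', hmon, ?_⟩
  have := minpoly.aeval ℚ x
  rw [← hP, ← hP', Polynomial.aeval_def, Polynomial.eval₂_map] at this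
  rw [show algebraMap ℤ E = (algebraMap ℚ E).comp (Int.castRingHom ℚ) from RingHom.ext_int _ _]
  exact this

/-- The absolute value pulled back along a homomorphism into a normed field. -/
noncomputable def pullAbs {K A : Type*} [Field K] [NormedField A] (φ : K →+* A) :
    AbsoluteValue K ℝ :=
  (IsAbsoluteValue.toAbsoluteValue (norm : A → ℝ)).comp φ.injective

lemma uncountable_of_nontriviallyNormedField (A : Type*) [NontriviallyNormedField A]
    [CompleteSpace A] : Uncountable A := by
  rw [← not_countable_iff, ← mk_le_aleph0_iff, not_le]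
  exact aleph0_lt_continuum.trans_le (continuum_le_cardinal_of_nontriviallyNormedField A)

/-- In characteristic zero. -/
lemma exists_abs_ne_one_charZero {K : Type*} [Field K] [Countable K] [CharZero K] {x : K}
    (hx : ∀ m : ℕ, 0 < m → x ^ m ≠ 1) : ∃ v : AbsoluteValue K ℝ, v x ≠ 1 := by
  haveI : Uncountable ℂ := uncountable_of_nontriviallyNormedField ℂ
  by_cases halg : IsAlgebraic ℚ x
  · haveI : FiniteDimensional ℚ ℚ⟮x⟯ := IntermediateField.adjoin.finiteDimensional halg.isIntegral
    haveI : NumberField ℚ⟮x⟯ :=
      { to_charZero := inferInstance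
        to_finiteDimensional := inferInstance }
    let g := IntermediateField.AdjoinSimple.gen ℚ x
    by_cases hint : IsIntegral ℤ g
    · obtain ⟨φ, hφ⟩ : ∃ φ : ℚ⟮x⟯ →+* ℂ, ‖φ g‖ ≠ 1 := by
        by_contra! hall
        obtain ⟨m, hm, hpow⟩ := NumberField.Embeddings.pow_eq_one_of_norm_eq_one ℚ⟮x⟯ ℂ hint hall
        exact hx m hm (by simpa [g] using congrArg (algebraMap ℚ⟮x⟯ K) hpow)
      letI := φ.toAlgebra
      obtain ⟨σ⟩ := exists_algHom_of_countable (E := ℚ⟮x⟯) (K := K) (L := ℂ)
      refine ⟨pullAbs σ.toRingHom, fun h => hφ ?_⟩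
      have h1 : σ x = φ g := σ.commutes g
      rw [← h1]
      exact h
    · obtain ⟨p, hpf, φ, hφ⟩ : ∃ (p : ℕ) (_ : Fact p.Prime) (φ : ℚ⟮x⟯ →+* PadicAlgCl p),
          1 < ‖φ g‖ := by
        by_contra! hall
        exact hint (isIntegral_of_padic_norm_le_one fun p hp φ => hall p hp φ)
      haveI := uncountable_of_nontriviallyNormedField ℚ_[p]
      haveI : Uncountable (PadicAlgCl p) :=
        Function.Injective.uncountable (algebraMap ℚ_[p] (PadicAlgCl p)).injective
      letI := φ.toAlgebra
      obtain ⟨σ⟩ := exists_algHom_of_countable (E := ℚ⟮x⟯) (K := K) (L := PadicAlgCl p)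
      refine ⟨pullAbs σ.toRingHom, ne_of_gt ?_⟩
      have h1 : σ x = φ g := σ.commutes g
      show 1 < ‖σ x‖
      rw [h1]
      exact hφ
  · have hl : Transcendental ℚ ((liouvilleNumber (2 : ℕ) : ℝ) : ℂ) := by
      have h1 := transcendental_liouvilleNumber (m := 2) le_rfl
      exact fun h2 => h1 ((IsFractionRing.isAlgebraic_iff ℤ ℚ ℝ).mpr
        ((isAlgebraic_algebraMap_iff (algebraMap ℝ ℂ).injective).mp h2))
    obtain ⟨σ, hσ⟩ := exists_ringHom_map_eq (F := ℚ) (L := ℂ) halg hl
    refine ⟨pullAbs σ, fun h => hl ?_⟩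
    have h1 : ‖((liouvilleNumber (2 : ℕ) : ℝ) : ℂ)‖ = 1 := hσ ▸ h
    rw [Complex.norm_real, Real.norm_eq_abs, abs_eq (by norm_num)] at h1
    rcases h1 with h1 | h1 <;> rw [h1]
    · simpa using isAlgebraic_one
    · simpa using isAlgebraic_one.neg

/-- Transferring to a complete ultrametric field over a finite field. -/
lemma exists_abs_ne_one_of_complete {F K B : Type*} [Field F] [Finite F] [Field K] [Countable K]
    [Algebra F K] [NontriviallyNormedField B] [IsUltrametricDist B] [CompleteSpace B]
    [Algebra F B] {x : K} (hxt : Transcendental F x) : ∃ v : AbsoluteValue K ℝ, v x ≠ 1 := by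
  have := uncountable_of_nontriviallyNormedField B
  have : Uncountable (AlgebraicClosure B) :=
    Function.Injective.uncountable (algebraMap B (AlgebraicClosure B)).injective
  let N := spectralMulAlgNorm B (AlgebraicClosure B)
  obtain ⟨z, hz⟩ := NormedField.exists_one_lt_norm B
  set y := algebraMap B (AlgebraicClosure B) z with hy0
  have hzn : 1 < N y := by
    rw [hy0, spectralMulAlgNorm_def, spectralNorm_extends]
    exact hz
  let a : AbsoluteValue (AlgebraicClosure B) ℝ :=
    { toFun := N
      map_mul' := map_mul N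
      nonneg' := apply_nonneg N
      eq_zero' := fun w => map_eq_zero_iff_eq_zero N
      add_le' := map_add_le_add N }
  letI : Algebra F (AlgebraicClosure B) :=
    ((algebraMap B (AlgebraicClosure B)).comp (algebraMap F B)).toAlgebra
  have hy : Transcendental F y := by
    intro halg
    have : FiniteDimensional F F⟮y⟯ := IntermediateField.adjoin.finiteDimensional halg.isIntegral
    have : Finite F⟮y⟯ := Module.finite_of_finite F
    have hne : IntermediateField.AdjoinSimple.gen F y ≠ 0 := by
      intro h
      have h' : y = 0 := congrArg Subtype.val h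
      rw [h', map_zero] at hzn
      linarith
    obtain ⟨m, hm, hpow⟩ := isOfFinOrder_iff_pow_eq_one.mp
      (isOfFinOrder_of_finite (Units.mk0 _ hne))
    have h1 : y ^ m = 1 := by
      have h0 := congrArg (algebraMap F⟮y⟯ (AlgebraicClosure B)) (congrArg Units.val hpow)
      simpa using h0
    have h2 := congrArg N h1
    rw [map_pow, map_one] at h2
    exact absurd h2 (one_lt_pow₀ hzn hm.ne').ne'
  obtain ⟨σ, hσ⟩ := exists_ringHom_map_eq (L := AlgebraicClosure B) hxt hy
  refine ⟨a.comp σ.injective, ne_of_gt ?_⟩
  show 1 < N (σ x)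
  rw [hσ]
  exact hzn

open LaurentSeries in
/-- In positive characteristic. -/
lemma exists_abs_ne_one_charP {K : Type*} [Field K] [Countable K] (p : ℕ) [Fact p.Prime]
    [CharP K p] {x : K} (hx0 : x ≠ 0) (hx : ∀ m : ℕ, 0 < m → x ^ m ≠ 1) :
    ∃ v : AbsoluteValue K ℝ, v x ≠ 1 := by
  letI : Algebra (ZMod p) K := ZMod.algebra K p
  have hxt : Transcendental (ZMod p) x := by
    intro halg
    have : FiniteDimensional (ZMod p) (ZMod p)⟮x⟯ :=
      IntermediateField.adjoin.finiteDimensional halg.isIntegral
    have : Finite (ZMod p)⟮x⟯ := Module.finite_of_finite (ZMod p)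
    obtain ⟨m, hm, hpow⟩ := isOfFinOrder_iff_pow_eq_one.mp (isOfFinOrder_of_finite
      (Units.mk0 (IntermediateField.AdjoinSimple.gen (ZMod p) x)
        (fun h => hx0 (congrArg Subtype.val h))))
    have h0 := congrArg (algebraMap (ZMod p)⟮x⟯ K) (congrArg Units.val hpow)
    exact hx m hm (by simpa using h0)
  letI hr : (Valued.v (R := LaurentSeries (ZMod p))).RankOne :=
    { hom' := (WithZeroMulInt.toNNReal (e := 2) two_ne_zero).comp
        MonoidWithZeroHom.ValueGroup₀.embedding
      strictMono' := (WithZeroMulInt.toNNReal_strictMono one_lt_two).comp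
        MonoidWithZeroHom.ValueGroup₀.embedding_strictMono
      exists_val_nontrivial := by
        obtain ⟨z, hz⟩ := LaurentSeries.valuation_surjective (K := ZMod p)
          (WithZero.exp (-1 : ℤ))
        exact ⟨z, by simp [hz], by simp [hz]⟩ }
  letI : NontriviallyNormedField (LaurentSeries (ZMod p)) :=
    Valued.toNontriviallyNormedField (L := LaurentSeries (ZMod p))
      (Γ₀ := WithZero (Multiplicative ℤ))
  have : IsUltrametricDist (LaurentSeries (ZMod p)) :=
    IsUltrametricDist.isUltrametricDist_of_isNonarchimedean_norm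
      (fun a b => Valuation.norm_add_le (Valued.v (R := LaurentSeries (ZMod p))) a b)
  exact exists_abs_ne_one_of_complete (B := LaurentSeries (ZMod p)) hxt

/-- An element of a countable field which is neither zero nor a root of unity has absolute value
different from one for some absolute value. -/
theorem exists_abs_ne_one {K : Type*} [Field K] [Countable K] {x : K} (hx0 : x ≠ 0)
    (hx : ∀ m : ℕ, 0 < m → x ^ m ≠ 1) : ∃ v : AbsoluteValue K ℝ, v x ≠ 1 := by
  obtain ⟨p, hp⟩ := CharP.exists K
  rcases CharP.char_is_prime_or_zero K p with hpp | rfl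
  · haveI := Fact.mk hpp
    exact exists_abs_ne_one_charP p hx0 hx
  · haveI := CharP.charP_to_charZero K
    exact exists_abs_ne_one_charZero hx

end Vale.Agent.P184
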