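import Vale.Agent.P184.Defs

/-!
The finitary heart of the argument: a cyclic cocycle identity in the group ring with matrix
coefficients, and a Newton iteration which keeps a weighted norm under control.
-/

set_option linter.unusedSectionVars false

namespace Vale.Agent.P184

open Finset MonoidAlgebra
open scoped Classical

variable {G : Type*} [Group G] {q : ℕ}

abbrev Mat (q : ℕ) := Matrix (Fin q) (Fin q) ℂ

/-- Sum of the absolute values of the entries. -/
noncomputable def mnorm (A : Mat q) : ℝ := ∑ i, ∑ j, ‖A i j‖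

lemma mnorm_nonneg (A : Mat q) : 0 ≤ mnorm A :=
  Finset.sum_nonneg fun _ _ => Finset.sum_nonneg fun _ _ => norm_nonneg _

@[simp] lemma mnorm_zero : mnorm (0 : Mat q) = 0 := by simp [mnorm]

lemma mnorm_add_le (A B : Mat q) : mnorm (A + B) ≤ mnorm A + mnorm B := by
  simp only [mnorm, ← Finset.sum_add_distrib]
  gcongr with i _ j _
  exact norm_add_le _ _

lemma mnorm_neg (A : Mat q) : mnorm (-A) = mnorm A := by simp [mnorm]

lemma mnorm_mul_le (A B : Mat q) : mnorm (A * B) ≤ mnorm A * mnorm B := by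
  calc mnorm (A * B) ≤ ∑ i, ∑ k, ∑ j, ‖A i j‖ * ‖B j k‖ := by
        simp only [mnorm, Matrix.mul_apply]
        gcongr with i _ k _
        refine (norm_sum_le _ _).trans (le_of_eq ?_)
        simp
    _ = ∑ i, ∑ j, ‖A i j‖ * ∑ k, ‖B j k‖ := by
        refine Finset.sum_congr rfl fun i _ => ?_
        rw [Finset.sum_comm]
        simp [Finset.mul_sum]
    _ ≤ ∑ i, ∑ j, ‖A i j‖ * mnorm B := by
        gcongr with i _ j _
        exact Finset.single_le_sum (f := fun l => ∑ k, ‖B l k‖)
          (fun _ _ => Finset.sum_nonneg fun _ _ => norm_nonneg _) (Finset.mem_univ j)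
    _ = mnorm A * mnorm B := by simp [mnorm, Finset.sum_mul]

lemma norm_trace_le (A : Mat q) : ‖A.trace‖ ≤ mnorm A := by
  refine (norm_sum_le _ _).trans (Finset.sum_le_sum fun i _ => ?_)
  exact Finset.single_le_sum (f := fun j => ‖A i j‖) (fun _ _ => norm_nonneg _)
    (Finset.mem_univ i)

/-- Weighted norm on finitely supported matrix valued functions. -/
noncomputable def wN (B : G → ℝ) (f : MonoidAlgebra (Mat q) G) : ℝ :=
  f.coeff.sum fun g A => B g * mnorm A

lemma wN_nonneg {B : G → ℝ} (hB : ∀ g, 0 ≤ B g) (f : MonoidAlgebra (Mat q) G) : 0 ≤ wN B f :=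
  Finset.sum_nonneg fun g _ => mul_nonneg (hB g) (mnorm_nonneg _)

@[simp] lemma wN_zero (B : G → ℝ) : wN B (0 : MonoidAlgebra (Mat q) G) = 0 := by simp [wN]

lemma wN_single (B : G → ℝ) (a : G) (A : Mat q) :
    wN B (single a A) = B a * mnorm A := by
  simp [wN]

lemma wN_eq_sum (B : G → ℝ) (f : MonoidAlgebra (Mat q) G) (S : Finset G)
    (hS : f.coeff.support ⊆ S) : wN B f = ∑ g ∈ S, B g * mnorm (f.coeff g) := by
  rw [wN, Finsupp.sum]
  refine Finset.sum_subset hS fun g _ hg => ?_
  simp [Finsupp.notMem_support_iff.mp hg]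

lemma wN_add_le {B : G → ℝ} (hB : ∀ g, 0 ≤ B g) (f h : MonoidAlgebra (Mat q) G) :
    wN B (f + h) ≤ wN B f + wN B h := by
  rw [wN_eq_sum B (f + h) (f.coeff.support ∪ h.coeff.support)
      (by rw [coeff_add]; exact Finsupp.support_add),
    wN_eq_sum B f (f.coeff.support ∪ h.coeff.support) subset_union_left,
    wN_eq_sum B h (f.coeff.support ∪ h.coeff.support) subset_union_right,
    ← Finset.sum_add_distrib]
  gcongr with g
  rw [coeff_add, Finsupp.add_apply, ← mul_add]
  exact mul_le_mul_of_nonneg_left (mnorm_add_le _ _) (hB g)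

lemma wN_neg (B : G → ℝ) (f : MonoidAlgebra (Mat q) G) : wN B (-f) = wN B f := by
  simp [wN, Finsupp.sum, mnorm_neg]

lemma wN_sub_le {B : G → ℝ} (hB : ∀ g, 0 ≤ B g) (f h : MonoidAlgebra (Mat q) G) :
    wN B (f - h) ≤ wN B f + wN B h := by
  rw [sub_eq_add_neg]
  exact (wN_add_le hB f (-h)).trans (le_of_eq (by rw [wN_neg]))

lemma wN_sum_le {ι : Type*} {B : G → ℝ} (hB : ∀ g, 0 ≤ B g) (s : Finset ι)
    (f : ι → MonoidAlgebra (Mat q) G) : wN B (∑ i ∈ s, f i) ≤ ∑ i ∈ s, wN B (f i) :=
  Finset.le_sum_of_subadditive _ (wN_zero B).le (wN_add_le hB) s f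

/-- The unweighted norm. -/
noncomputable def nN (f : MonoidAlgebra (Mat q) G) : ℝ := wN (fun _ => 1) f

lemma nN_nonneg (f : MonoidAlgebra (Mat q) G) : 0 ≤ nN f := wN_nonneg (fun _ => zero_le_one) f

lemma nN_add_le (f h : MonoidAlgebra (Mat q) G) : nN (f + h) ≤ nN f + nN h :=
  wN_add_le (fun _ => zero_le_one) f h

lemma nN_sub_le (f h : MonoidAlgebra (Mat q) G) : nN (f - h) ≤ nN f + nN h :=
  wN_sub_le (fun _ => zero_le_one) f h

lemma nN_mul_le (f h : MonoidAlgebra (Mat q) G) : nN (f * h) ≤ nN f * nN h := by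
  rw [MonoidAlgebra.mul_def]
  refine (wN_sum_le (fun _ => zero_le_one) _ _).trans ?_
  refine (Finset.sum_le_sum fun a _ => wN_sum_le (fun _ => zero_le_one) _ _).trans ?_
  simp only [nN, wN, Finsupp.sum, Finset.sum_mul_sum, one_mul]
  gcongr with a _ b _
  have h1 := (wN_single (fun _ : G => (1 : ℝ)) (a * b) (f.coeff a * h.coeff b)).trans_le
    ((one_mul _).trans_le (mnorm_mul_le _ _))
  simpa [wN, Finsupp.sum] using h1

lemma wN_mul_le {B : G → ℝ} (hB : ∀ g, 0 ≤ B g) (hsub : ∀ a b, B (a * b) ≤ B a + B b)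
    (f h : MonoidAlgebra (Mat q) G) : wN B (f * h) ≤ wN B f * nN h + nN f * wN B h := by
  rw [MonoidAlgebra.mul_def]
  refine (wN_sum_le hB _ _).trans ?_
  refine (Finset.sum_le_sum fun a _ => wN_sum_le hB _ _).trans ?_
  simp only [nN, wN, Finsupp.sum, Finset.sum_mul_sum, one_mul, ← Finset.sum_add_distrib]
  gcongr with a _ b _
  have h1 := mnorm_mul_le (f.coeff a) (h.coeff b)
  have h2 := mul_le_mul (hsub a b) h1 (mnorm_nonneg _) (add_nonneg (hB a) (hB b))
  calc _ = B (a * b) * mnorm (f.coeff a * h.coeff b) := wN_single B _ _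
    _ ≤ _ := h2
    _ = _ := by ring

/-- Trace on the class of `g`. -/
noncomputable def tauF (g : G) (f : MonoidAlgebra (Mat q) G) : ℂ :=
  f.coeff.sum fun x A => if IsConj g x then A.trace else 0

lemma tauF_zero (g : G) : tauF g (0 : MonoidAlgebra (Mat q) G) = 0 := by simp [tauF]

lemma tauF_add (g : G) (f h : MonoidAlgebra (Mat q) G) :
    tauF g (f + h) = tauF g f + tauF g h := by
  rw [tauF, tauF, tauF, coeff_add]
  refine Finsupp.sum_add_index (fun x _ => by simp) (fun x _ A B => ?_)
  split <;> simp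

lemma tauF_sub (g : G) (f h : MonoidAlgebra (Mat q) G) :
    tauF g (f - h) = tauF g f - tauF g h := by
  rw [eq_sub_iff_add_eq, ← tauF_add, sub_add_cancel]

lemma tauF_single (g x : G) (A : Mat q) :
    tauF g (single x A) = if IsConj g x then A.trace else 0 := by
  simp [tauF]

lemma norm_tauF_le (g : G) (f : MonoidAlgebra (Mat q) G) : ‖tauF g f‖ ≤ nN f := by
  refine (norm_sum_le _ _).trans (Finset.sum_le_sum fun x _ => ?_)
  dsimp only
  split
  · simpa using norm_trace_le _
  · simpa using mnorm_nonneg _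

/-- A bilinear form given by a kernel on pairs of group elements. -/
noncomputable def bil (W : G → G → ℂ) (f h : MonoidAlgebra (Mat q) G) : ℂ :=
  f.coeff.sum fun a A => h.coeff.sum fun b B => W a b * (A * B).trace

lemma bil_single (W : G → G → ℂ) (a b : G) (A B : Mat q) :
    bil W (single a A) (single b B) = W a b * (A * B).trace := by
  simp [bil]

lemma bil_zero_left (W : G → G → ℂ) (h : MonoidAlgebra (Mat q) G) : bil W 0 h = 0 := by
  simp [bil]

lemma bil_zero_right (W : G → G → ℂ) (f : MonoidAlgebra (Mat q) G) : bil W f 0 = 0 := by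
  simp [bil]

lemma bil_add_left (W : G → G → ℂ) (f f' h : MonoidAlgebra (Mat q) G) :
    bil W (f + f') h = bil W f h + bil W f' h := by
  rw [bil, bil, bil, coeff_add]
  refine Finsupp.sum_add_index (fun x _ => by simp) (fun x _ A A' => ?_)
  simp only [add_mul, Matrix.trace_add, mul_add, Finsupp.sum_add]

lemma bil_add_right (W : G → G → ℂ) (f h h' : MonoidAlgebra (Mat q) G) :
    bil W f (h + h') = bil W f h + bil W f h' := by
  rw [bil, bil, bil, coeff_add, ← Finsupp.sum_add]
  refine Finsupp.sum_congr fun x _ => ?_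
  refine Finsupp.sum_add_index (fun x _ => by simp) (fun x _ A A' => ?_)
  simp only [mul_add, Matrix.trace_add]

lemma bil_sub_right (W : G → G → ℂ) (f h h' : MonoidAlgebra (Mat q) G) :
    bil W f (h - h') = bil W f h - bil W f h' := by
  rw [eq_sub_iff_add_eq, ← bil_add_right, sub_add_cancel]

lemma norm_bil_le {W : G → G → ℂ} {B : G → ℝ} (hW : ∀ a b, ‖W a b‖ ≤ B a)
    (f h : MonoidAlgebra (Mat q) G) : ‖bil W f h‖ ≤ wN B f * nN h := by
  simp only [bil, nN, wN, Finsupp.sum, Finset.sum_mul_sum, one_mul]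
  refine (norm_sum_le _ _).trans (Finset.sum_le_sum fun a _ => ?_)
  refine (norm_sum_le _ _).trans (Finset.sum_le_sum fun b _ => ?_)
  rw [norm_mul, mul_assoc]
  exact mul_le_mul (hW a b) ((norm_trace_le _).trans (mnorm_mul_le _ _)) (norm_nonneg _)
    ((norm_nonneg _).trans (hW a b))

/-- A bounded real cocycle on the conjugation action on the class of `g`, nonzero at the
diagonal. -/
structure Coc (g : G) where
  u : G → G → ℝ
  c : ℝ
  B : G → ℝ
  c_ne : c ≠ 0
  coc : ∀ a b x, IsConj g x → u (a * b) x = u a (b * x * b⁻¹) + u b x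
  diag : ∀ x, IsConj g x → u x x = c
  B_nonneg : ∀ a, 0 ≤ B a
  B_sub : ∀ a b, B (a * b) ≤ B a + B b
  bound : ∀ a x, IsConj g x → |u a x| ≤ B a

/-- The kernel attached to a cocycle. -/
noncomputable def Coc.W {g : G} (D : Coc g) (a b : G) : ℂ :=
  if IsConj g (a * b) then (D.u a (b * a) : ℂ) else 0

lemma isConj_mul_comm' {g : G} (a b : G) : IsConj g (a * b) ↔ IsConj g (b * a) := by
  have h : IsConj (a * b) (b * a) := isConj_iff.mpr ⟨b, by group⟩
  exact ⟨fun h' => h'.trans h, fun h' => h'.trans h.symm⟩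

lemma Coc.norm_W {g : G} (D : Coc g) (a b : G) : ‖D.W a b‖ ≤ D.B a := by
  unfold Coc.W
  split
  · next h =>
    rw [Complex.norm_real, Real.norm_eq_abs]
    exact D.bound _ _ ((isConj_mul_comm' a b).mp h)
  · simpa using D.B_nonneg a

lemma Coc.two {g : G} (D : Coc g) (f h : MonoidAlgebra (Mat q) G) :
    (D.c : ℂ) * tauF g (f * h) = bil D.W f h + bil D.W h f := by
  induction f using MonoidAlgebra.induction_linear with
  | zero => simp [tauF_zero, bil_zero_left, bil_zero_right]
  | add x y hx hy =>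
    simp only [add_mul, tauF_add, mul_add, bil_add_left, bil_add_right, hx, hy]; ring
  | single a A =>
    induction h using MonoidAlgebra.induction_linear with
    | zero => simp [tauF_zero, bil_zero_left, bil_zero_right]
    | add x y hx hy =>
      simp only [mul_add, tauF_add, bil_add_left, bil_add_right, hx, hy]; ring
    | single b B =>
      rw [single_mul_single, tauF_single, bil_single, bil_single, Coc.W, Coc.W]
      by_cases hC : IsConj g (a * b)
      · rw [if_pos hC, if_pos hC, if_pos ((isConj_mul_comm' a b).mp hC), Matrix.trace_mul_comm B A]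
        have h1 := D.coc a b _ hC
        rw [D.diag _ hC, show b * (a * b) * b⁻¹ = b * a by group] at h1
        rw [h1]; push_cast; ring
      · rw [if_neg hC, if_neg hC, if_neg (fun h' => hC ((isConj_mul_comm' a b).mpr h'))]
        ring

lemma Coc.three {g : G} (D : Coc g) (f h k : MonoidAlgebra (Mat q) G) :
    (D.c : ℂ) * tauF g (f * (h * k)) =
      bil D.W f (h * k) + bil D.W h (k * f) + bil D.W k (f * h) := by
  induction f using MonoidAlgebra.induction_linear with
  | zero => simp [tauF_zero, bil_zero_left, bil_zero_right]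
  | add x y hx hy =>
    simp only [add_mul, mul_add, tauF_add, bil_add_left, bil_add_right, hx, hy]; ring
  | single a A =>
    induction h using MonoidAlgebra.induction_linear with
    | zero => simp [tauF_zero, bil_zero_left, bil_zero_right]
    | add x y hx hy =>
      simp only [add_mul, mul_add, tauF_add, bil_add_left, bil_add_right, hx, hy]; ring
    | single b B =>
      induction k using MonoidAlgebra.induction_linear with
      | zero => simp [tauF_zero, bil_zero_left, bil_zero_right]
      | add x y hx hy =>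
        simp only [add_mul, mul_add, tauF_add, bil_add_left, bil_add_right, hx, hy]; ring
      | single d E =>
        simp only [single_mul_single, tauF_single, bil_single, Coc.W]
        have e1 : IsConj g (b * (d * a)) ↔ IsConj g (a * (b * d)) := by
          rw [isConj_mul_comm' a, mul_assoc]
        have e2 : IsConj g (d * (a * b)) ↔ IsConj g (a * (b * d)) := by
          rw [isConj_mul_comm' d, mul_assoc]
        by_cases hC : IsConj g (a * (b * d))
        · rw [if_pos hC, if_pos hC, if_pos (e1.mpr hC), if_pos (e2.mpr hC)]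
          have h1 := D.coc a (b * d) _ hC
          have hC' : IsConj g (a * (b * d)) := hC
          have h2 := D.coc b d _ hC'
          rw [D.diag _ hC, h2,
            show (b * d) * (a * (b * d)) * (b * d)⁻¹ = b * d * a by group,
            show d * (a * (b * d)) * d⁻¹ = d * a * b by group,
            show a * (b * d) = a * b * d by group] at h1
          rw [h1, Matrix.trace_mul_comm B (E * A), Matrix.mul_assoc E A B,
            Matrix.trace_mul_comm E (A * B), Matrix.mul_assoc A B E]
          push_cast; ring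
        · rw [if_neg hC, if_neg hC, if_neg (fun h' => hC (e1.mp h')),
            if_neg (fun h' => hC (e2.mp h'))]
          ring

lemma Coc.key {g : G} (D : Coc g) (f : MonoidAlgebra (Mat q) G) :
    (D.c : ℂ) * tauF g f = 2 * ((D.c : ℂ) * tauF g (f * (f * f - f)))
      - 6 * bil D.W f (f * f - f) - (D.c : ℂ) * tauF g (f * f - f) := by
  have h2 := D.two f f
  have h3 := D.three f f f
  rw [mul_sub f, tauF_sub, bil_sub_right, tauF_sub]
  linear_combination 3 * h2 - 2 * h3

/-- One Newton step towards an idempotent. -/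
noncomputable def newton (f : MonoidAlgebra (Mat q) G) : MonoidAlgebra (Mat q) G :=
  f + ((f * f - f) - (f * (f * f - f) + f * (f * f - f)))

lemma newton_defect_ring {R : Type*} [Ring R] (f : R) :
    (f + ((f * f - f) - (f * (f * f - f) + f * (f * f - f)))) *
        (f + ((f * f - f) - (f * (f * f - f) + f * (f * f - f)))) -
      (f + ((f * f - f) - (f * (f * f - f) + f * (f * f - f)))) =
      (f * f - f) * (f * f - f) * (f * f - f) + (f * f - f) * (f * f - f) * (f * f - f)
      + ((f * f - f) * (f * f - f) * (f * f - f) + (f * f - f) * (f * f - f) * (f * f - f))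
      - ((f * f - f) * (f * f - f) + (f * f - f) * (f * f - f) + (f * f - f) * (f * f - f)) := by
  have h := congrArg (Polynomial.aeval (R := ℤ) f)
    (show ((Polynomial.X + ((Polynomial.X * Polynomial.X - Polynomial.X) -
        (Polynomial.X * (Polynomial.X * Polynomial.X - Polynomial.X) +
          Polynomial.X * (Polynomial.X * Polynomial.X - Polynomial.X)))) *
        (Polynomial.X + ((Polynomial.X * Polynomial.X - Polynomial.X) -
        (Polynomial.X * (Polynomial.X * Polynomial.X - Polynomial.X) +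
          Polynomial.X * (Polynomial.X * Polynomial.X - Polynomial.X)))) -
        (Polynomial.X + ((Polynomial.X * Polynomial.X - Polynomial.X) -
        (Polynomial.X * (Polynomial.X * Polynomial.X - Polynomial.X) +
          Polynomial.X * (Polynomial.X * Polynomial.X - Polynomial.X))))
        : Polynomial ℤ) =
        4 * (Polynomial.X * Polynomial.X - Polynomial.X) ^ 3
          - 3 * (Polynomial.X * Polynomial.X - Polynomial.X) ^ 2 by ring)
  simp only [map_sub, map_add, map_mul, map_pow, Polynomial.aeval_X, map_ofNat] at h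
  rw [h]
  simp only [pow_succ, pow_zero, one_mul]
  generalize f * f - f = r
  noncomm_ring

lemma newton_defect (f : MonoidAlgebra (Mat q) G) :
    newton f * newton f - newton f =
      (f * f - f) * (f * f - f) * (f * f - f) + (f * f - f) * (f * f - f) * (f * f - f)
      + ((f * f - f) * (f * f - f) * (f * f - f) + (f * f - f) * (f * f - f) * (f * f - f))
      - ((f * f - f) * (f * f - f) + (f * f - f) * (f * f - f) + (f * f - f) * (f * f - f)) := by
  exact newton_defect_ring f

lemma nN_newton_defect {f : MonoidAlgebra (Mat q) G} {t : ℝ} (ht : nN (f * f - f) ≤ t)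
    (ht1 : t ≤ 1) : nN (newton f * newton f - newton f) ≤ 7 * t * t := by
  rw [newton_defect]
  set r := f * f - f
  have hr := nN_nonneg r
  have h2 : nN (r * r) ≤ t * t :=
    (nN_mul_le r r).trans (mul_le_mul ht ht hr (hr.trans ht))
  have h3 : nN (r * r * r) ≤ t * t * 1 :=
    (nN_mul_le _ r).trans (mul_le_mul h2 (ht.trans ht1) hr (mul_self_nonneg t))
  refine (nN_sub_le _ _).trans ?_
  have a1 := nN_add_le (r * r * r + r * r * r) (r * r * r + r * r * r)
  have a2 := nN_add_le (r * r * r) (r * r * r)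
  have a3 := nN_add_le (r * r + r * r) (r * r)
  have a4 := nN_add_le (r * r) (r * r)
  linarith

lemma nN_newton_le {f : MonoidAlgebra (Mat q) G} {t M : ℝ} (ht : nN (f * f - f) ≤ t)
    (hM : nN f ≤ M) : nN (newton f) ≤ nN f + (1 + 2 * M) * t := by
  unfold newton
  set r := f * f - f
  have h1 : nN (f * r) ≤ M * t :=
    (nN_mul_le f r).trans (mul_le_mul hM ht (nN_nonneg r) ((nN_nonneg f).trans hM))
  have a1 := nN_add_le f (r - (f * r + f * r))
  have a2 := nN_sub_le r (f * r + f * r)
  have a3 := nN_add_le (f * r) (f * r)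
  linarith

lemma wN_newton_le {B : G → ℝ} (hB : ∀ g, 0 ≤ B g) (hsub : ∀ a b, B (a * b) ≤ B a + B b)
    {f : MonoidAlgebra (Mat q) G} {M : ℝ} (hr : nN (f * f - f) ≤ 1) (hM : nN f ≤ M) :
    wN B (newton f) ≤ (1 + (2 * M + 1) + 2 * (1 + M * (2 * M + 1))) * wN B f := by
  unfold newton
  set r := f * f - f with hrdef
  have hf := wN_nonneg hB f
  have h1 : wN B r ≤ (2 * M + 1) * wN B f := by
    have := (wN_sub_le hB (f * f) f)
    have := wN_mul_le hB hsub f f
    have := mul_le_mul_of_nonneg_right hM hf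
    have := mul_le_mul_of_nonneg_left hM hf
    rw [hrdef]; linarith
  have h2 : wN B (f * r) ≤ (1 + M * (2 * M + 1)) * wN B f := by
    have := wN_mul_le hB hsub f r
    have := mul_le_mul_of_nonneg_left hr hf
    have := mul_le_mul hM h1 (wN_nonneg hB r) ((nN_nonneg f).trans hM)
    linarith
  have a1 := wN_add_le hB f (r - (f * r + f * r))
  have a2 := wN_sub_le hB r (f * r + f * r)
  have a3 := wN_add_le hB (f * r) (f * r)
  linarith

lemma tauF_newton_sub_le (g : G) {f : MonoidAlgebra (Mat q) G} {t M : ℝ}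
    (ht : nN (f * f - f) ≤ t) (hM : nN f ≤ M) :
    ‖tauF g (newton f) - tauF g f‖ ≤ (1 + 2 * M) * t := by
  rw [← tauF_sub]
  refine (norm_tauF_le _ _).trans ?_
  unfold newton
  rw [add_sub_cancel_left]
  set r := f * f - f
  have h1 : nN (f * r) ≤ M * t :=
    (nN_mul_le f r).trans (mul_le_mul hM ht (nN_nonneg r) ((nN_nonneg f).trans hM))
  have a2 := nN_sub_le r (f * r + f * r)
  have a3 := nN_add_le (f * r) (f * r)
  linarith

/-- A finitely supported near idempotent has small trace at the class. -/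
theorem Coc.near {g : G} (D : Coc g) {M ε : ℝ} (hε0 : 0 < ε)
    (f : MonoidAlgebra (Mat q) G) (hr : nN (f * f - f) ≤ ε)
    (hM : nN f + 2 * ((1 + 2 * M) * ε) ≤ M)
    (hs : 7 * ε * (1 + (2 * M + 1) + 2 * (1 + M * (2 * M + 1))) ≤ 1 / 2) :
    ‖tauF g f‖ ≤ 2 * ((1 + 2 * M) * ε) := by
  have hM0 : 0 ≤ M := by
    have := nN_nonneg f
    by_contra h
    have hε4 : 4 * ε < 1 := by
      have : 3 * (7 * ε) ≤ 1 / 2 := le_trans (by nlinarith [sq_nonneg (2 * M + 1)]) hs
      linarith
    nlinarith [mul_pos (neg_pos.mpr (not_le.mp h)) (sub_pos.mpr hε4)]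
  set K := 1 + (2 * M + 1) + 2 * (1 + M * (2 * M + 1)) with hK
  have hK1 : 1 ≤ K := by nlinarith
  set s := 7 * ε with hsdef
  have hs2 : s ≤ 1 / 2 := by nlinarith
  have hs0 : 0 < s := by positivity
  set P := (1 + 2 * M) * ε with hP
  have hP0 : 0 ≤ P := by positivity
  -- invariants along the iteration
  have key : ∀ m : ℕ, nN ((newton^[m] f) * (newton^[m] f) - newton^[m] f) ≤ ε * s ^ m ∧
      nN (newton^[m] f) + 2 * P * s ^ m ≤ M ∧
      wN D.B (newton^[m] f) ≤ K ^ m * wN D.B f ∧
      ‖tauF g (newton^[m] f) - tauF g f‖ ≤ 2 * P * (1 - s ^ m) := by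
    intro m
    induction m with
    | zero => exact ⟨by simpa using hr, by simpa using hM, by simp, by simp⟩
    | succ m ih =>
      obtain ⟨i1, i2, i3, i4⟩ := ih
      rw [Function.iterate_succ_apply']
      set x := newton^[m] f
      have hp : 0 < s ^ m := pow_pos hs0 m
      have hp1 : s ^ m ≤ 1 := pow_le_one₀ hs0.le (by linarith)
      have hxM : nN x ≤ M := by nlinarith
      have ht1 : ε * s ^ m ≤ 1 := by nlinarith
      refine ⟨?_, ?_, ?_, ?_⟩
      · refine (nN_newton_defect i1 ht1).trans ?_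
        rw [pow_succ]
        calc 7 * (ε * s ^ m) * (ε * s ^ m) = ε * s ^ m * (s * s ^ m) := by rw [hsdef]; ring
          _ ≤ ε * s ^ m * (s * 1) := by gcongr
          _ = _ := by ring
      · have := nN_newton_le i1 hxM
        have : (1 + 2 * M) * (ε * s ^ m) = P * s ^ m := by rw [hP]; ring
        have : 0 ≤ P * s ^ m * (1 / 2 - s) := mul_nonneg (by positivity) (by linarith)
        rw [pow_succ]
        nlinarith
      · refine (wN_newton_le D.B_nonneg D.B_sub (i1.trans ht1) hxM).trans ?_
        rw [pow_succ]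
        calc K * wN D.B x ≤ K * (K ^ m * wN D.B f) := by gcongr
          _ = _ := by ring
      · have := tauF_newton_sub_le g i1 hxM
        have := norm_sub_le_norm_sub_add_norm_sub (tauF g (newton x)) (tauF g x) (tauF g f)
        have : (1 + 2 * M) * (ε * s ^ m) = P * s ^ m := by rw [hP]; ring
        have : 0 ≤ P * s ^ m * (1 / 2 - s) := mul_nonneg (by positivity) (by linarith)
        rw [pow_succ]
        nlinarith
  -- the iterates have traces tending to zero
  set W0 := wN D.B f
  have hW0 : 0 ≤ W0 := wN_nonneg D.B_nonneg f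
  set C := (2 * |D.c| * M + |D.c|) * ε + 6 * W0 * ε with hC
  have small : ∀ m : ℕ, |D.c| * ‖tauF g (newton^[m] f)‖ ≤ C * (1 / 2 : ℝ) ^ m := by
    intro m
    obtain ⟨i1, i2, i3, -⟩ := key m
    set x := newton^[m] f
    have hp : 0 < s ^ m := pow_pos hs0 m
    have hxM : nN x ≤ M := by nlinarith
    have h1 : ‖(D.c : ℂ) * tauF g (x * (x * x - x))‖ ≤ |D.c| * (M * (ε * s ^ m)) := by
      rw [norm_mul, Complex.norm_real, Real.norm_eq_abs]
      gcongr
      exact (norm_tauF_le _ _).trans ((nN_mul_le _ _).trans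
        (mul_le_mul hxM i1 (nN_nonneg _) hM0))
    have h2 : ‖bil D.W x (x * x - x)‖ ≤ K ^ m * W0 * (ε * s ^ m) :=
      (norm_bil_le D.norm_W _ _).trans
        (mul_le_mul i3 i1 (nN_nonneg _) (by positivity))
    have h3 : ‖(D.c : ℂ) * tauF g (x * x - x)‖ ≤ |D.c| * (ε * s ^ m) := by
      rw [norm_mul, Complex.norm_real, Real.norm_eq_abs]
      gcongr
      exact (norm_tauF_le _ _).trans i1
    have h4 : |D.c| * ‖tauF g x‖ ≤ 2 * (|D.c| * (M * (ε * s ^ m)))
        + 6 * (K ^ m * W0 * (ε * s ^ m)) + |D.c| * (ε * s ^ m) := by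
      calc |D.c| * ‖tauF g x‖ = ‖(D.c : ℂ) * tauF g x‖ := by
            rw [norm_mul, Complex.norm_real, Real.norm_eq_abs]
        _ ≤ ‖2 * ((D.c : ℂ) * tauF g (x * (x * x - x))) - 6 * bil D.W x (x * x - x)‖
            + ‖(D.c : ℂ) * tauF g (x * x - x)‖ := by
            rw [D.key x]; exact norm_sub_le _ _
        _ ≤ (‖2 * ((D.c : ℂ) * tauF g (x * (x * x - x)))‖ + ‖6 * bil D.W x (x * x - x)‖)
            + ‖(D.c : ℂ) * tauF g (x * x - x)‖ := by gcongr; exact norm_sub_le _ _
        _ ≤ _ := by
          gcongr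
          · rw [norm_mul, RCLike.norm_ofNat]; linarith
          · rw [norm_mul, RCLike.norm_ofNat]; linarith
    have hsK : s ^ m ≤ (1 / 2 : ℝ) ^ m := pow_le_pow_left₀ hs0.le hs2 m
    have hKs : K ^ m * s ^ m ≤ (1 / 2 : ℝ) ^ m := by
      rw [← mul_pow]
      exact pow_le_pow_left₀ (by positivity) (by linarith) m
    calc |D.c| * ‖tauF g x‖ ≤ (2 * |D.c| * M + |D.c|) * ε * s ^ m
          + 6 * W0 * ε * (K ^ m * s ^ m) := by linarith
      _ ≤ (2 * |D.c| * M + |D.c|) * ε * (1 / 2) ^ m + 6 * W0 * ε * (1 / 2) ^ m := by gcongr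
      _ = _ := by rw [hC]; ring
  refine le_of_forall_pos_le_add fun η hη => ?_
  have hc : 0 < |D.c| := abs_pos.mpr D.c_ne
  have hC0 : 0 ≤ C := by positivity
  obtain ⟨m, hm⟩ := exists_pow_lt_of_lt_one (show 0 < η * |D.c| / (C + 1) by positivity)
    (show (1 / 2 : ℝ) < 1 by norm_num)
  obtain ⟨-, -, -, i4⟩ := key m
  have hsm : ‖tauF g (newton^[m] f)‖ ≤ η := by
    rw [lt_div_iff₀ (by positivity)] at hm
    have := small m
    have : 0 ≤ (1 / 2 : ℝ) ^ m := by positivity
    nlinarith
  have := norm_le_norm_add_norm_sub' (tauF g f) (tauF g (newton^[m] f))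
  have hs' : 0 ≤ 2 * P * s ^ m := by positivity
  rw [norm_sub_rev] at i4
  linarith

end Vale.Agent.P184
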