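import Vale.Agent.P184.Criterion
import Vale.Agent.P184.Fields

/-!
Classes in linear groups which are not quasi-unipotent.
-/

set_option linter.unusedSectionVars false
set_option linter.style.haveILetI false

namespace Vale.Agent.P184

open scoped Classical

variable {L : Type*} [Field L] {n k : ℕ}

/-- Expansion of a maximal minor of a product along the rows of the first factor. -/
lemma det_submatrix_mul {k' : ℕ} (A : Matrix (Fin k') (Fin n) L) (X : Matrix (Fin n) (Fin k) L)
    (s : Fin k → Fin k') :
    ((A * X).submatrix s id).det =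
      ∑ f : Fin k → Fin n, (∏ i, A (s i) (f i)) * (X.submatrix f id).det := by
  have h0 : ((A * X).submatrix s id) = Matrix.of fun i => ∑ j, A (s i) j • X j := by
    ext i c
    simp [Matrix.mul_apply, Finset.sum_apply]
  rw [h0]
  change Matrix.detRowAlternating.toMultilinearMap (fun i => ∑ j, A (s i) j • X j) = _
  rw [MultilinearMap.map_sum]
  refine Finset.sum_congr rfl fun f _ => ?_
  rw [MultilinearMap.map_smul_univ, smul_eq_mul]
  rfl

/-- Size of the Pluecker vector of `X`. -/
noncomputable def minorSize (v : AbsoluteValue L ℝ) (X : Matrix (Fin n) (Fin k) L) : ℝ :=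
  ∑ f : Fin k → Fin n, v (X.submatrix f id).det

lemma minorSize_mul_le (v : AbsoluteValue L ℝ) (A : Matrix (Fin n) (Fin n) L)
    (X : Matrix (Fin n) (Fin k) L) :
    minorSize v (A * X) ≤
      (∑ s : Fin k → Fin n, ∑ f : Fin k → Fin n, v (∏ i, A (s i) (f i))) * minorSize v X := by
  rw [minorSize, Finset.sum_mul]
  refine Finset.sum_le_sum fun s _ => ?_
  rw [det_submatrix_mul, Finset.sum_mul]
  refine (v.sum_le _ _).trans (Finset.sum_le_sum fun f _ => ?_)
  rw [map_mul]
  exact mul_le_mul_of_nonneg_left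
    (Finset.single_le_sum (f := fun g : Fin k → Fin n => v (X.submatrix g id).det)
      (fun _ _ => v.nonneg _) (Finset.mem_univ f)) (v.nonneg _)

lemma minorSize_mul_right (v : AbsoluteValue L ℝ) (X : Matrix (Fin n) (Fin k) L)
    (C : Matrix (Fin k) (Fin k) L) : minorSize v (X * C) = minorSize v X * v C.det := by
  rw [minorSize, minorSize, Finset.sum_mul]
  refine Finset.sum_congr rfl fun f _ => ?_
  rw [← map_mul, ← Matrix.det_mul]
  rfl

lemma minorSize_pos (v : AbsoluteValue L ℝ) (X : Matrix (Fin n) (Fin k) L)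
    (Y : Matrix (Fin k) (Fin n) L) (h : Y * X = 1) : 0 < minorSize v X := by
  refine lt_of_le_of_ne (Finset.sum_nonneg fun _ _ => v.nonneg _) fun h0 => ?_
  have hz := (Finset.sum_eq_zero_iff_of_nonneg fun f _ => v.nonneg _).mp h0.symm
  have h1 := det_submatrix_mul Y X id
  rw [h] at h1
  simp only [Matrix.submatrix_id_id, Matrix.det_one] at h1
  rw [Finset.sum_eq_zero fun f _ => by
    rw [v.eq_zero.mp (hz f (Finset.mem_univ f)), mul_zero]] at h1
  exact one_ne_zero h1

/-- An eigenvalue of absolute value different from one forces vanishing. -/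
theorem hsTrace_eq_zero_of_eigenvalue {H : Type*} [Group H] (ρ : H →* Matrix (Fin n) (Fin n) L)
    (g : H) (v : AbsoluteValue L ℝ) (l : L) (hroot : (ρ g).charpoly.IsRoot l) (hl : l ≠ 0)
    (hv : v l ≠ 1) {q : ℕ} (e : Fin q → Fin q → H → ℂ) (he : IsL1Idempotent e) :
    hsTrace e g = 0 := by
  -- the eigenspace
  let E : Submodule L (Fin n → L) := LinearMap.ker (Matrix.mulVecLin (ρ g - Matrix.scalar _ l))
  have hE : ∀ x, x ∈ E ↔ (ρ g).mulVec x = l • x := fun x => by
    simp [E, LinearMap.mem_ker, Matrix.sub_mulVec, sub_eq_zero, Matrix.smul_one_eq_diagonal,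
      ← Matrix.mulVec_diagonal, funext_iff]
  have hEne : E ≠ ⊥ := by
    rw [Submodule.ne_bot_iff]
    have hdet : (Matrix.scalar _ l - ρ g).det = 0 := by
      rw [← Matrix.eval_charpoly]
      exact hroot
    obtain ⟨x, hx0, hx⟩ := Matrix.exists_mulVec_eq_zero_iff.mpr hdet
    refine ⟨x, ?_, hx0⟩
    show (ρ g - Matrix.scalar _ l).mulVec x = 0
    rw [← neg_sub, Matrix.neg_mulVec, hx, neg_zero]
  set d := Module.finrank L E
  have hd : d ≠ 0 := fun h => hEne (Submodule.finrank_eq_zero.mp h)
  let b : Module.Basis (Fin d) L E := Module.finBasis L E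
  let B : Matrix (Fin n) (Fin d) L := Matrix.of fun i j => (b j : Fin n → L) i
  have hB : ∀ c : Fin d → L, B.mulVec c = ((∑ j, c j • b j : E) : Fin n → L) := fun c => by
    funext i
    simp [B, Matrix.mulVec, dotProduct, Finset.sum_apply, mul_comm]
  -- a left inverse
  obtain ⟨Y, hY⟩ : ∃ Y : Matrix (Fin d) (Fin n) L, Y * B = 1 := by
    have hinj : LinearMap.ker B.mulVecLin = ⊥ := by
      rw [LinearMap.ker_eq_bot']
      intro c hc
      have h2 : (∑ j, c j • b j : E) = 0 := Subtype.ext ((hB c).symm.trans hc)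
      exact funext (Fintype.linearIndependent_iff.mp b.linearIndependent c h2)
    obtain ⟨f, hf⟩ := B.mulVecLin.exists_leftInverse_of_injective hinj
    refine ⟨LinearMap.toMatrix' f, ?_⟩
    have h3 := congrArg LinearMap.toMatrix' hf
    rwa [LinearMap.toMatrix'_comp, LinearMap.toMatrix'_id,
      ← Matrix.toLin'_apply', LinearMap.toMatrix'_toLin'] at h3
  have hinv : ∀ h : H, ρ h * ρ h⁻¹ = 1 := fun h => by rw [← map_mul, mul_inv_cancel, map_one]
  -- the centraliser preserves the eigenspace
  have hC : ∀ z : H, z * g = g * z → ∃ C : Matrix (Fin d) (Fin d) L, ρ z * B = B * C := by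
    intro z hz
    have hcom : ρ g * ρ z = ρ z * ρ g := by rw [← map_mul, ← map_mul, hz]
    have hmem : ∀ j, (ρ z).mulVec (b j : Fin n → L) ∈ E := fun j => by
      rw [hE, Matrix.mulVec_mulVec, hcom, ← Matrix.mulVec_mulVec, (hE _).mp (b j).2,
        Matrix.mulVec_smul]
    refine ⟨Matrix.of fun i j => b.repr ⟨_, hmem j⟩ i, ?_⟩
    ext i j
    have h1 : B.mulVec (fun i' => b.repr ⟨_, hmem j⟩ i') = (ρ z).mulVec (b j : Fin n → L) := by
      rw [hB, b.sum_repr]
    exact (congrFun h1 i).symm
  let N : H → ℝ := fun h => minorSize v (ρ h⁻¹ * B)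
  have hN : ∀ h, 0 < N h := fun h => minorSize_pos v _ (Y * ρ h) (by
    rw [Matrix.mul_assoc, ← Matrix.mul_assoc (ρ h), hinv, Matrix.one_mul, hY])
  let θ : H → ℝ := fun h => -Real.log (N h)
  have hcoef : ∀ z : H, z * g = g * z → ∃ C : Matrix (Fin d) (Fin d) L,
      ρ z⁻¹ * B = B * C ∧ ∀ h, N (z * h) = N h * v C.det := by
    intro z hz
    obtain ⟨C, hC'⟩ := hC z⁻¹ (Commute.inv_left hz).eq
    refine ⟨C, hC', fun h => ?_⟩
    show minorSize v (ρ (z * h)⁻¹ * B) = _
    rw [mul_inv_rev, map_mul, Matrix.mul_assoc, hC', ← Matrix.mul_assoc, minorSize_mul_right]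
  have hshift : ∀ z : H, z * g = g * z → ∀ h, θ (z * h) - θ h = θ z - θ 1 := by
    intro z hz h
    obtain ⟨C, -, hC''⟩ := hcoef z hz
    have h1 := hC'' 1
    rw [mul_one] at h1
    have hc : v C.det ≠ 0 := by
      intro h0
      rw [h0, mul_zero] at h1
      exact (hN z).ne' h1
    simp only [θ]
    rw [hC'', h1, Real.log_mul (hN h).ne' hc, Real.log_mul (hN 1).ne' hc]
    ring
  refine hsTrace_eq_zero_of_shift θ
    (fun z hz => hshift z (Subgroup.mem_centralizer_singleton_iff.mp hz)) ?_ (fun a => ?_) e he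
  · intro heq
    obtain ⟨C, hC', hC''⟩ := hcoef g rfl
    have hgB : ρ g * B = l • B := by
      ext i j
      exact congrFun ((hE _).mp (b j).2) i
    have h2 : l • C = 1 := by
      have h3 : B = B * (l • C) := by
        conv_lhs => rw [← Matrix.one_mul B, ← hinv g⁻¹, inv_inv, Matrix.mul_assoc, hgB]
        rw [Matrix.mul_smul, hC', Matrix.mul_smul]
      have := congrArg (Y * ·) h3
      simpa [← Matrix.mul_assoc, hY] using this.symm
    have h4 : v l ^ d * v C.det = 1 := by
      have := congrArg (fun M => v (Matrix.det M)) h2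
      simpa [Matrix.det_smul] using this
    have h1 := hC'' 1
    rw [mul_one] at h1
    have heq' : N g = N 1 :=
      Real.log_injOn_pos (hN g) (hN 1) (neg_injective heq)
    rw [heq'] at h1
    have hc1 : v C.det = 1 := mul_left_cancel₀ (hN 1).ne' (h1.symm.trans (mul_one _).symm)
    rw [hc1, mul_one, pow_eq_one_iff_of_nonneg (v.nonneg _) hd] at h4
    exact hv h4
  · let K : H → ℝ := fun a =>
      ∑ s : Fin d → Fin n, ∑ f : Fin d → Fin n, v (∏ i, ρ a⁻¹ (s i) (f i))
    have hK : ∀ a h, N (h * a) ≤ K a * N h := fun a h => by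
      show minorSize v (ρ (h * a)⁻¹ * B) ≤ _
      rw [mul_inv_rev, map_mul, Matrix.mul_assoc]
      exact minorSize_mul_le v _ _
    have hKpos : ∀ a, 0 < K a := fun a => by
      have := hK a 1
      have := hN (1 * a)
      exact pos_of_mul_pos_left (by linarith) (hN 1).le
    refine ⟨max (Real.log (K a)) (Real.log (K a⁻¹)), fun h => ?_⟩
    have h1 := Real.log_le_log (hN _) (hK a h)
    have h2 := Real.log_le_log (hN h) (by simpa using hK a⁻¹ (h * a))
    rw [Real.log_mul (hKpos a).ne' (hN h).ne'] at h1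
    rw [Real.log_mul (hKpos _).ne' (hN _).ne'] at h2
    rw [abs_le]
    simp only [θ]
    constructor
    · linarith [le_max_left (Real.log (K a)) (Real.log (K a⁻¹))]
    · linarith [le_max_right (Real.log (K a)) (Real.log (K a⁻¹))]

/-- Vanishing can be checked on countable subgroups. -/
theorem hsTrace_eq_zero_of_countable {G : Type*} [Group G] (g : G) {q : ℕ}
    (hyp : ∀ H : Subgroup G, Countable H → ∀ x : H, IsConj g (x : G) →
      ∀ e : Fin q → Fin q → H → ℂ, IsL1Idempotent e → hsTrace e x = 0)
    (e : Fin q → Fin q → G → ℂ) (he : IsL1Idempotent e) : hsTrace e g = 0 := by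
  obtain ⟨hsum, hconv⟩ := he
  let S : Set G := {g} ∪ ⋃ i, ⋃ j, Function.support (e i j)
  have hS : S.Countable := (Set.countable_singleton g).union
    (Set.countable_iUnion fun i => Set.countable_iUnion fun j => by
      refine (hsum i j).countable_support.mono fun h hh => ?_
      simpa using hh)
  let H := Subgroup.closure S
  have hcl : Countable H := by
    haveI := hS.to_subtype
    have h1 : (FreeGroup.lift (Subtype.val : S → G)).range = H := by
      rw [FreeGroup.range_lift_eq_closure, Subtype.range_coe]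
    rw [← h1]
    exact (MonoidHom.rangeRestrict_surjective _).countable
  have hout : ∀ i j (x : G), x ∉ H → e i j x = 0 := fun i j x hx => by
    by_contra h
    exact hx (Subgroup.subset_closure (Or.inr (Set.mem_iUnion.mpr ⟨i, Set.mem_iUnion.mpr ⟨j, h⟩⟩)))
  let e' : Fin q → Fin q → H → ℂ := fun i j x => e i j (x : G)
  have he' : IsL1Idempotent e' := by
    refine ⟨fun i j => (hsum i j).comp_injective Subtype.val_injective, fun i l x => ?_⟩
    show _ = e i l (x : G)
    rw [← hconv i l x]
    refine Finset.sum_congr rfl fun j _ => ?_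
    refine tsum_subtype_eq_of_support_subset (s := (H : Set G))
      (f := fun y => e i j y * e j l (y⁻¹ * (x : G))) fun y hy => ?_
    by_contra hyH
    exact hy (by simp [hout i j y hyH])
  let F : H → ℂ := fun x => {y : H | IsConj g (y : G)}.indicator (fun y => ∑ i, e' i i y) x
  have hF : Summable F := by
    refine Summable.indicator (summable_sum fun i _ => ?_) _
    exact (Summable.of_norm (hsum i i)).comp_injective Subtype.val_injective
  have htot : hsTrace e g = ∑' x, F x := by
    let C : Set G := {y | IsConj g y}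
    have h1 : hsTrace e g = ∑' y, C.indicator (fun y => ∑ i, e i i y) y :=
      tsum_subtype C (fun y => ∑ i, e i i y)
    rw [h1, ← tsum_subtype_eq_of_support_subset (s := (H : Set G))
      (f := C.indicator fun y => ∑ i, e i i y) ?_]
    · exact tsum_congr fun x => by simp [F, C, e', Set.indicator_apply]
    · intro y hy
      by_contra hyH
      exact hy (by simp [Set.indicator_apply, hout _ _ y hyH])
  rw [htot]
  have hcl2 : ∀ c : ConjClasses H,
      ∑' x : (ConjClasses.mk ⁻¹' {c} : Set H), F x = 0 := by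
    intro c
    obtain ⟨x, rfl⟩ := ConjClasses.exists_rep c
    · rw [tsum_subtype]
      by_cases hx : IsConj g (x : G)
      · have h1 := hyp H hcl x hx e' he'
        refine Eq.trans ?_ h1
        show _ = ∑' y : {y : H // IsConj x y}, ∑ i, e' i i (y : H)
        refine Eq.trans ?_ (tsum_subtype {y : H | IsConj x y} fun y => ∑ i, e' i i y).symm
        refine tsum_congr fun y => ?_
        simp only [F, Set.indicator_apply, Set.mem_preimage, Set.mem_singleton_iff,
          ConjClasses.mk_eq_mk_iff_isConj]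
        by_cases hxy : IsConj x y
        · have hgy : IsConj g (y : G) := hx.trans (H.subtype.map_isConj hxy)
          exact (if_pos hxy.symm).trans ((if_pos hgy).trans (if_pos hxy).symm)
        · have : ¬ IsConj y x := fun h => hxy h.symm
          exact (if_neg this).trans (if_neg hxy).symm
      · refine (tsum_congr fun y => ?_).trans tsum_zero
        simp only [F, Set.indicator_apply, Set.mem_preimage, Set.mem_singleton_iff,
          ConjClasses.mk_eq_mk_iff_isConj]
        by_cases hxy : IsConj y x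
        · have hgy : ¬ IsConj g (y : G) := fun h => hx (h.trans (H.subtype.map_isConj hxy))
          exact (if_pos hxy).trans (if_neg hgy)
        · exact if_neg hxy
  have hfib := (HasSum.tsum_fiberwise hF.hasSum ConjClasses.mk)
  simp only [hcl2] at hfib
  exact hfib.unique hasSum_zero

/-- A root of the characteristic polynomial which is not a root of unity. -/
lemma exists_eigenvalue {k : Type*} [Field k] (M : Matrix (Fin n) (Fin n) k)
    (hM : ∀ m : ℕ, 0 < m → ¬ IsNilpotent (M ^ m - 1)) :
    ∃ l : AlgebraicClosure k, (M.map (algebraMap k (AlgebraicClosure k))).charpoly.IsRoot l ∧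
      ∀ m : ℕ, 0 < m → l ^ m ≠ 1 := by
  set φ := algebraMap k (AlgebraicClosure k)
  set P := (M.map φ).charpoly with hP
  by_contra! hall
  have hP0 : P.Monic := Matrix.charpoly_monic _
  choose! m hmpos hmpow using fun l (hl : P.IsRoot l) => hall l hl
  let N := ∏ l ∈ P.roots.toFinset, m l
  have hroot : ∀ l ∈ P.roots, P.IsRoot l := fun l hl => (Polynomial.mem_roots hP0.ne_zero).mp hl
  have hN : 0 < N := Finset.prod_pos fun l hl => hmpos l (hroot l (Multiset.mem_toFinset.mp hl))
  have hdvd : P ∣ (Polynomial.X ^ N - 1) ^ P.roots.card := by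
    conv_lhs => rw [(IsAlgClosed.splits P).eq_prod_roots_of_monic hP0]
    have h1 : ∀ l ∈ P.roots, (Polynomial.X - Polynomial.C l) ∣
        ((Polynomial.X ^ N - 1 : Polynomial (AlgebraicClosure k))) := fun l hl => by
      rw [Polynomial.dvd_iff_isRoot]
      obtain ⟨c, hc⟩ : m l ∣ N := Finset.dvd_prod_of_mem m (Multiset.mem_toFinset.mpr hl)
      simp [hc, pow_mul, hmpow l (hroot l hl)]
    calc (P.roots.map fun l => Polynomial.X - Polynomial.C l).prod
        ∣ (P.roots.map fun _ => (Polynomial.X ^ N - 1 : Polynomial (AlgebraicClosure k))).prod :=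
          Multiset.prod_dvd_prod_of_dvd _ _ h1
      _ = _ := by rw [Multiset.map_const', Multiset.prod_replicate]
  refine hM N hN ⟨P.roots.card, ?_⟩
  apply (Matrix.map_injective φ.injective)
  obtain ⟨R, hR⟩ := hdvd
  have h2 := congrArg (Polynomial.aeval (M.map φ)) hR
  rw [map_mul, hP, Matrix.aeval_self_charpoly, zero_mul] at h2
  simp only [map_pow, map_sub, map_one, Polynomial.aeval_X] at h2
  show φ.mapMatrix ((M ^ N - 1) ^ _) = φ.mapMatrix 0
  rw [map_pow, map_sub, map_pow, map_one, map_zero]
  exact h2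

/-- Coefficients at classes which are not quasi-unipotent vanish, in any linear representation. -/
theorem hsTrace_eq_zero_of_not_quasiUnipotent {G : Type*} [Group G] {k : Type*} [Field k]
    (ρ : G →* GL (Fin n) k) (g : G)
    (hg : ∀ m : ℕ, 0 < m → ¬ IsNilpotent ((ρ (g ^ m) : Matrix (Fin n) (Fin n) k) - 1))
    {q : ℕ} (e : Fin q → Fin q → G → ℂ) (he : IsL1Idempotent e) : hsTrace e g = 0 := by
  obtain ⟨l, hl, hlu⟩ := exists_eigenvalue (ρ g : Matrix (Fin n) (Fin n) k) fun m hm => by
    rw [← Units.val_pow_eq_pow_val, ← map_pow]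
    exact hg m hm
  refine hsTrace_eq_zero_of_countable g (fun H hH x hx e' he' => ?_) e he
  let φ := algebraMap k (AlgebraicClosure k)
  let S : Set (AlgebraicClosure k) :=
    {l} ∪ ⋃ h : H, ⋃ i, ⋃ j, {φ ((ρ (h : G) : Matrix (Fin n) (Fin n) k) i j)}
  let K : Subfield (AlgebraicClosure k) := Subfield.closure S
  have hS : S.Countable := (Set.countable_singleton l).union (Set.countable_iUnion fun h =>
    Set.countable_iUnion fun i => Set.countable_iUnion fun j => Set.countable_singleton _)
  haveI : Countable K := Cardinal.mk_le_aleph0_iff.mp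
    ((Subfield.cardinalMk_closure_le_max S).trans (max_le hS.le_aleph0 le_rfl))
  let M : H → Matrix (Fin n) (Fin n) K := fun h => Matrix.of fun i j =>
    ⟨φ ((ρ (h : G) : Matrix (Fin n) (Fin n) k) i j), Subfield.subset_closure (Or.inr
      (Set.mem_iUnion.mpr ⟨h, Set.mem_iUnion.mpr ⟨i, Set.mem_iUnion.mpr ⟨j, rfl⟩⟩⟩))⟩
  have hMmap : ∀ h : H, K.subtype.mapMatrix (M h) =
      φ.mapMatrix (ρ (h : G) : Matrix (Fin n) (Fin n) k) := fun h => rfl
  let MH : H →* Matrix (Fin n) (Fin n) K :=
    { toFun := M
      map_one' := Matrix.map_injective K.subtype.injective (by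
        show K.subtype.mapMatrix (M 1) = K.subtype.mapMatrix 1
        rw [hMmap]; simp)
      map_mul' := fun a b => Matrix.map_injective K.subtype.injective (by
        show K.subtype.mapMatrix (M (a * b)) = K.subtype.mapMatrix (M a * M b)
        rw [map_mul, hMmap, hMmap, hMmap]; simp) }
  let l' : K := ⟨l, Subfield.subset_closure (Or.inl rfl)⟩
  have hl0 : l' ≠ 0 := by
    intro h0
    have h1 : l = 0 := congrArg Subtype.val h0
    rw [h1, Matrix.charpoly_map, Polynomial.IsRoot, ← Polynomial.coeff_zero_eq_eval_zero,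
      Polynomial.coeff_map, map_eq_zero] at hl
    have := Matrix.det_eq_sign_charpoly_coeff (ρ g : Matrix (Fin n) (Fin n) k)
    rw [hl, mul_zero] at this
    exact (Matrix.isUnits_det_units (ρ g)).ne_zero this
  obtain ⟨v, hv⟩ := exists_abs_ne_one hl0 fun m hm h => hlu m hm (congrArg Subtype.val h)
  have hchar : (ρ (x : G) : Matrix (Fin n) (Fin n) k).charpoly =
      (ρ g : Matrix (Fin n) (Fin n) k).charpoly := by
    obtain ⟨c, hc⟩ := isConj_iff.mp hx
    rw [← hc, map_mul, map_mul, map_inv, Units.val_mul, Units.val_mul]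
    rw [Matrix.coe_units_inv]
    exact Matrix.charpoly_units_conj (ρ c) (ρ g : Matrix (Fin n) (Fin n) k)
  have hroot : (MH x).charpoly.IsRoot l' := by
    refine Polynomial.IsRoot.of_map (f := K.subtype) ?_ K.subtype.injective
    rw [← Matrix.charpoly_map]
    show (φ.mapMatrix (ρ (x : G) : Matrix (Fin n) (Fin n) k)).charpoly.IsRoot l
    rw [RingHom.mapMatrix_apply, Matrix.charpoly_map, hchar, ← Matrix.charpoly_map]
    exact hl
  exact hsTrace_eq_zero_of_eigenvalue MH x v l' hroot hl0 hv e' he'

/-- In positive characteristic every element of infinite order of a linear group is covered. -/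
theorem hsTrace_eq_zero_of_charP {G : Type*} [Group G] {k : Type*} [Field k] (p : ℕ)
    [Fact p.Prime] [CharP k p] (ρ : G →* GL (Fin n) k) (hρ : Function.Injective ρ) (g : G)
    (hg : ¬ IsOfFinOrder g) {q : ℕ} (e : Fin q → Fin q → G → ℂ) (he : IsL1Idempotent e) :
    hsTrace e g = 0 := by
  refine hsTrace_eq_zero_of_not_quasiUnipotent ρ g (fun m hm hnil => hg ?_) e he
  rcases isEmpty_or_nonempty (Fin n) with h | h
  · have : g = 1 := hρ (Subsingleton.elim _ _)
    rw [this]; exact IsOfFinOrder.one
  obtain ⟨r, hr⟩ := hnil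
  have hr' : ((ρ (g ^ m) : Matrix (Fin n) (Fin n) k) - 1) ^ (p ^ r) = 0 :=
    pow_eq_zero_of_le (Nat.lt_pow_self (Fact.out : p.Prime).one_lt).le hr
  rw [sub_pow_char_pow_of_commute _ _ (Commute.one_right _), one_pow, sub_eq_zero] at hr'
  rw [isOfFinOrder_iff_pow_eq_one]
  refine ⟨m * p ^ r, Nat.mul_pos hm (pow_pos (Fact.out : p.Prime).pos r), hρ ?_⟩
  rw [map_one, pow_mul, map_pow]
  exact Units.ext (by simpa using hr')

end Vale.Agent.P184
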